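import Vale.Agent.P122.H286.ValG

/-!
# P122 / H286 : the counting excess as a limit

* `mx_le_of_dens` : `E.Dens D lam → mx D ≤ lam`
* `sInf_dens` : the least exponent `e` with `Dens (D i) 2^((e+ε) L i)` is the limit of `log2 (mx (D i)) / L i`
-/

set_option autoImplicit false

namespace Vale.Agent.P122.H286

open Filter Topology Finset Vale.Agent.P127 Vale.Agent.P127.Stk Vale.Agent.P127.U Vale.Agent.P127.U.Sys
  Vale.Agent.P122.C2 Vale.Agent.P122.E

theorem dens_mono {s : ℕ → Z2 → Fin 2 → ℝ} {n c : ℕ} {D : Set Nd} {a b : ℝ} (h : Dens s n c D a) (hab : a ≤ b) :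
    Dens s n c D b := by
  intro θ u1 u2 p v T U hN h12 hu hU
  have hu1 : 0 < u1 := lt_of_lt_of_le (by positivity) hN
  have hu2 : 0 < u2 := lt_of_lt_of_le hu1 h12
  exact (h θ u1 u2 p v T U hN h12 hu hU).trans (mul_le_mul_of_nonneg_right hab (by positivity))

theorem dens_anti {s : ℕ → Z2 → Fin 2 → ℝ} {n c : ℕ} {D D' : Set Nd} {a : ℝ} (h : Dens s n c D a) (hD : D' ⊆ D) :
    Dens s n c D' a := by
  intro θ u1 u2 p v T U hN h12 hu hU
  exact h θ u1 u2 p v T U hN h12 hu fun S hS => ⟨hD (hU S hS).1, (hU S hS).2⟩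

/-- **the maximal density is bounded by every density bound for planks** -/
theorem mx_le_of_dens {s : ℕ → Z2 → Fin 2 → ℝ} {n c : ℕ} {D : Finset Nd} {D' : Set Nd} (hD : ∀ S ∈ D, S ∈ D') {lam : ℝ}
    (h : Dens s n c D' lam) : (nbf s n c).mx D ≤ lam := by
  refine (nbf s n c).mx_le D fun w hw => ?_
  obtain ⟨h1, h2, h3⟩ := hw
  have h4 := h w.θ ((1 / 2 : ℝ) ^ w.j) ((1 / 2 : ℝ) ^ w.k) w.p w.v w.t ((nbf s n c).ins D w)
    (pow_le_pow_of_le_one (by norm_num) (by norm_num) h2) (pow_le_pow_of_le_one (by norm_num) (by norm_num) h1)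
    (pow_le_one₀ (by norm_num) (by norm_num)) (by
      intro S hS
      obtain ⟨a0, a1, a2, a3, a4, a5⟩ := (BF.mem_ins _).1 hS
      exact ⟨hD S a0, a1, a2, a3, a4, a5⟩)
  refine h4.trans (le_of_eq ?_)
  show lam * ((1 / 2 : ℝ) ^ w.j * (1 / 2 : ℝ) ^ w.k * 2 ^ (2 * c * n)) = lam * 2 ^ (2 * (c * n) - (w.k + w.j))
  congr 1
  rw [← pow_add, one_div, inv_pow, mul_comm, ← div_eq_mul_inv, div_eq_iff (by positivity), ← pow_add]
  congr 1
  have : w.j + w.k ≤ 2 * (c * n) := by omega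
  have e : 2 * c * n = 2 * (c * n) := by ring
  omega

/-- normalised logarithm of the maximal density -/
noncomputable def lmx (s : ℕ → Z2 → Fin 2 → ℝ) (n c : ℕ) (D : Finset Nd) : ℝ := Real.logb 2 ((nbf s n c).mx D)

theorem lmx_nonneg (s : ℕ → Z2 → Fin 2 → ℝ) (n c : ℕ) {D : Finset Nd} (h : D.Nonempty) : 0 ≤ lmx s n c D :=
  Real.logb_nonneg (by norm_num) (one_le_mx_nbf s n c h)

theorem mx_eq_pow (s : ℕ → Z2 → Fin 2 → ℝ) (n c : ℕ) {D : Finset Nd} (h : D.Nonempty) :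
    (nbf s n c).mx D = (2 : ℝ) ^ lmx s n c D := by
  have := one_le_mx_nbf s n c h
  unfold lmx
  rw [Real.rpow_logb (by norm_num) (by norm_num) (by linarith)]

theorem lmx_le_iff (s : ℕ → Z2 → Fin 2 → ℝ) (n c : ℕ) {D : Finset Nd} (h : D.Nonempty) (r : ℝ) :
    lmx s n c D ≤ r ↔ (nbf s n c).mx D ≤ (2 : ℝ) ^ r := by
  rw [mx_eq_pow s n c h, Real.rpow_le_rpow_left_iff (by norm_num)]

theorem lmx_mono (s : ℕ → Z2 → Fin 2 → ℝ) (n c : ℕ) {D D' : Finset Nd} (h' : D'.Nonempty) (h : D' ⊆ D) :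
    lmx s n c D' ≤ lmx s n c D := by
  rw [lmx_le_iff s n c h', ← mx_eq_pow s n c (h'.mono h)]
  exact (nbf s n c).mx_mono h

theorem lmx_le_card (s : ℕ → Z2 → Fin 2 → ℝ) (n c : ℕ) {D : Finset Nd} (h : D.Nonempty) :
    lmx s n c D ≤ Real.logb 2 D.card := by
  unfold lmx
  have h1 := one_le_mx_nbf s n c h
  exact Real.logb_le_logb_of_le (by norm_num) (by linarith) ((nbf s n c).mx_le_card D)

theorem pow_two_ge {L : ℕ → ℕ} (hL : Tendsto L (uf : Filter ℕ) atTop) {ε : ℝ} (hε : 0 < ε) (C : ℝ) :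
    ∀ᶠ i in (uf : Filter ℕ), C ≤ (2 : ℝ) ^ (ε * L i) := by
  have h1 : Tendsto (fun i => ε * (L i : ℝ)) (uf : Filter ℕ) atTop :=
    (tendsto_natCast_atTop_atTop.comp hL).const_mul_atTop hε
  filter_upwards [h1.eventually_ge_atTop (max C 1)] with i hi
  have h2 : C ≤ ε * (L i : ℝ) := (le_max_left _ _).trans hi
  have h3 : 1 ≤ ε * (L i : ℝ) := (le_max_right _ _).trans hi
  have h5 := one_add_mul_self_le_rpow_one_add (s := 1) (by norm_num) (p := ε * (L i : ℝ)) h3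
  norm_num at h5
  linarith

/-- **the counting excess is a limit** -/
theorem sInf_dens {L : ℕ → ℕ} (hL : Tendsto L (uf : Filter ℕ) atTop) (s : ℕ → ℕ → Z2 → Fin 2 → ℝ) (n : ℕ → ℕ) (c : ℕ)
    (D : ℕ → Finset Nd) (hne : ∀ᶠ i in (uf : Filter ℕ), (D i).Nonempty)
    (hub : UB fun i => lmx (s i) (n i) c (D i) / L i) :
    sInf {e : ℝ | 0 ≤ e ∧ ∀ ε : ℝ, 0 < ε → ∀ᶠ i in (uf : Filter ℕ),
      Dens (s i) (n i) c {S | S ∈ D i} ((2 : ℝ) ^ ((e + ε) * L i))} = ulim fun i => lmx (s i) (n i) c (D i) / L i := by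
  set x := ulim fun i => lmx (s i) (n i) c (D i) / L i with hx
  have hLpos : ∀ᶠ i in (uf : Filter ℕ), (0 : ℝ) < L i := by
    filter_upwards [hL.eventually_gt_atTop 0] with i hi
    exact_mod_cast hi
  have hx0 : 0 ≤ x := by
    refine const_le_ulim hub ?_
    filter_upwards [hne, hLpos] with i h1 h2
    exact div_nonneg (lmx_nonneg _ _ _ h1) h2.le
  refine le_antisymm (csInf_le ⟨0, fun e he => he.1⟩ ⟨hx0, ?_⟩) (le_csInf ⟨x, hx0, ?_⟩ ?_)
  · intro ε hε
    filter_upwards [hub.tendsto.eventually (gt_mem_nhds (show ulim _ < x + ε / 2 by rw [← hx]; linarith)), hne, hLpos,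
      pow_two_ge hL (half_pos hε) 4] with i h1 h2 h3 h4
    refine dens_mono (dens_of (s i) (n i) c (D i) fun S hS => hS) ?_
    have h5 : (nbf (s i) (n i) c).mx (D i) ≤ (2 : ℝ) ^ ((x + ε / 2) * L i) := by
      rw [← lmx_le_iff _ _ _ h2]
      rw [div_lt_iff₀ h3] at h1
      exact h1.le
    have h6 : (x + ε) * (L i : ℝ) = ε / 2 * L i + (x + ε / 2) * L i := by ring
    rw [h6, Real.rpow_add (by norm_num)]
    exact mul_le_mul h4 h5 ((nbf _ _ _).mx_nonneg _) (Real.rpow_nonneg (by norm_num) _)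
  · intro ε hε
    filter_upwards [hub.tendsto.eventually (gt_mem_nhds (show ulim _ < x + ε / 2 by rw [← hx]; linarith)), hne, hLpos,
      pow_two_ge hL (half_pos hε) 4] with i h1 h2 h3 h4
    refine dens_mono (dens_of (s i) (n i) c (D i) fun S hS => hS) ?_
    have h5 : (nbf (s i) (n i) c).mx (D i) ≤ (2 : ℝ) ^ ((x + ε / 2) * L i) := by
      rw [← lmx_le_iff _ _ _ h2]
      rw [div_lt_iff₀ h3] at h1
      exact h1.le
    have h6 : (x + ε) * (L i : ℝ) = ε / 2 * L i + (x + ε / 2) * L i := by ring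
    rw [h6, Real.rpow_add (by norm_num)]
    exact mul_le_mul h4 h5 ((nbf _ _ _).mx_nonneg _) (Real.rpow_nonneg (by norm_num) _)
  · rintro e ⟨he0, he⟩
    refine le_of_forall_pos_le_add fun ε hε => ?_
    refine ulim_le_const hub ?_
    filter_upwards [he ε hε, hne, hLpos] with i h1 h2 h3
    rw [div_le_iff₀ h3, lmx_le_iff _ _ _ h2]
    exact mx_le_of_dens (fun S hS => hS) h1

end Vale.Agent.P122.H286
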