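import Vale.Agent.P122.H286.RGbox
import Vale.Agent.P122.H610.Stab

/-!
# P122 / H286 : RGbox for `VS.Stable` and `VS.en`

* `en_eq` : 610's `W.en c` is the limit of `log2 (mx (D c)) / L`
* `card_Dn` : `Cnt (N c)` gives the number of reached nodes
* `RGbox` : stable `W` with `Cnt (N c) one (H c)` has a refinement with all fields of the boxes of `E.RegA`
-/

set_option autoImplicit false

namespace Vale.Agent.P122.H286

open Filter Topology Finset Vale.Agent.P127 Vale.Agent.P127.Stk Vale.Agent.P127.U Vale.Agent.P127.U.Sys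
  Vale.Agent.P122.C2 Vale.Agent.P122.E Vale.Agent.P122.H610

variable {K : ℕ} {Z : CS K}

theorem en_eq (W : VS Z) {c : ℕ} (hc : c ≤ K) (h : Z.OL (ld W c)) : W.en c = em W c := em_eq_sInf W hc h

theorem ld_mono {W' W : VS Z} (h : W'.Le W) {c : ℕ} (hc : c ≤ K) :
    ∀ᶠ i in (uf : Filter ℕ), ld W' c i ≤ ld W c i := by
  have hle : ∀ᶠ i in (uf : Filter ℕ), (W'.V i).Le (W.V i) := by
    first | exact h.le | exact Eventually.of_forall h.le
  filter_upwards [hle] with i hi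
  exact lmx_mono _ _ _ (Dn_ne W' hc i) (hi.D c)

theorem ld_OL_mono {W' W : VS Z} (h : W'.Le W) {c : ℕ} (hc : c ≤ K) (hOL : Z.OL (ld W c)) : Z.OL (ld W' c) := by
  obtain ⟨C, hC⟩ := hOL
  refine CS.OL.of_le (c := C) (Eventually.of_forall fun i => ld_nonneg W' hc i) ?_
  filter_upwards [ld_mono h hc, hC, Z.L_pos] with i a1 a2 a3
  have a4 := (abs_le.1 a2).2
  rw [div_le_iff₀ a3] at a4
  linarith

theorem em_mono {W' W : VS Z} (h : W'.Le W) {c : ℕ} (hc : c ≤ K) (hOL : Z.OL (ld W c)) : em W' c ≤ em W c :=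
  CS.lg_mono (ld_OL_mono h hc hOL) hOL (ld_mono h hc)

/-- every reached node is the node of a flag -/
theorem exists_flag (W : VS Z) {c : ℕ} (hc : c ≤ K) (i : ℕ) {S : Nd} (hS : S ∈ Dn W c i) :
    ∃ ω : W.sys.Ω i, W.flg.N c i ω = S := by
  have h1 := wt_pos (W.ok i) hc (S := S) hS
  unfold wt at h1
  obtain ⟨f, hf⟩ := Finset.card_pos.1 h1
  obtain ⟨h2, h3⟩ := Finset.mem_filter.1 hf
  exact ⟨⟨f, h2⟩, h3⟩

/-- the number of reached nodes -/
theorem card_Dn (W : VS Z) {c : ℕ} (hc : c ≤ K) {H : ℝ}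
    (h : Cnt W.flg.S (W.flg.N c) (one (S := W.flg.S)) H) (ε : ℝ) (hε : 0 < ε) :
    ∀ᶠ i in (uf : Filter ℕ), ((Dn W c i).card : ℝ) ≤ (2 : ℝ) ^ ((H + ε) * Z.L i) := by
  filter_upwards [h ε hε] with i hi
  obtain ⟨S0, hS0⟩ := Dn_ne W hc i
  obtain ⟨ω0, -⟩ := exists_flag W hc i hS0
  obtain ⟨U, hU, hU'⟩ := hi ω0 (W.sys_pos i ω0)
  refine le_trans ?_ hU
  refine Nat.cast_le.2 (Finset.card_le_card fun S hS => ?_)
  obtain ⟨ω, rfl⟩ := exists_flag W hc i hS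
  exact hU' ω (W.sys_pos i ω) rfl

theorem ld_OL (W : VS Z) {c : ℕ} (hc : c ≤ K) {H : ℝ}
    (h : Cnt W.flg.S (W.flg.N c) (one (S := W.flg.S)) H) : Z.OL (ld W c) := by
  refine CS.OL.of_le (c := H + 1) (Eventually.of_forall fun i => ld_nonneg W hc i) ?_
  filter_upwards [card_Dn W hc h 1 one_pos] with i hi
  have h1 : (0 : ℝ) < (Dn W c i).card := by exact_mod_cast (Dn_ne W hc i).card_pos
  refine (lmx_le_card _ _ _ (Dn_ne W hc i)).trans ?_
  rw [Real.logb_le_iff_le_rpow (by norm_num) h1]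
  exact hi

/-- **RGbox** -/
theorem RGbox (W : VS Z) (hS : W.Stable) (H : ℕ → ℝ)
    (hN : ∀ c, c ≤ K → Cnt W.flg.S (W.flg.N c) (one (S := W.flg.S)) (H c)) :
    ∃ W' : VS Z, W'.Le W ∧ W'.Incl W ∧ ∃ (B : ℕ → W'.flg.S.BX) (kk jj : ℕ → ℕ → ℕ),
      BoxOut W'.flg H W.en B kk jj := by
  have hOL : ∀ c, c ≤ K → Z.OL (ld W c) := fun c hc => ld_OL W hc (hN c hc)
  obtain ⟨W', hle, hinc, B, kk, jj, hB⟩ : ∃ W' : VS Z, W'.Le W ∧ W'.Incl W ∧
      ∃ (B : ℕ → W'.flg.S.BX) (kk jj : ℕ → ℕ → ℕ), BoxOut W'.flg H (em W) B kk jj := by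
    refine rgbox_incl W hOL (fun W' h c hc => ?_) H fun c hc ε hε => card_Dn W hc (hN c hc) ε hε
    rw [← en_eq W hc (hOL c hc), ← en_eq W' hc (ld_OL_mono h hc (hOL c hc)), (hS W' h).2 c hc]
  have he : ∀ c, c ≤ K → W.en c = em W c := fun c hc => en_eq W hc (hOL c hc)
  exact ⟨W', hle, hinc, B, kk, jj, ⟨fun c hc => by rw [he c hc]; exact hB.exU c hc, hB.Wok, hB.Wfn,
    fun c hc => by rw [he c hc]; exact hB.W1 c hc⟩⟩

end Vale.Agent.P122.H286
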