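import Vale.Agent.P122.H286.Greedy
import Vale.Agent.P127.Stk.LibEnt

/-!
# P122 / H286 : maximal density of a finite set of tubes in boxes, greedy partition, entropy bounds

`B : BF T W` : a family of boxes with incidence `inc`, admissibility `F`, normalised volume `v ≥ 1`.
`B.mx D` : the maximum over the admissible boxes of `#{S ∈ D in w} / v w`.

* `mx_mono`, `card_le`, `mx_le`, `one_le_mx`
* `part` : for `κ > 0` a finite `D` splits into a low part `L` with `mx L ≤ κ` and the fibres of a map `f` into boxes of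
  density at least `κ`
* `H_box_le`, `le_hc_box` : for every law on a subset of the high part (one class of boxes) the entropy of the box
  `f X` is at most `log (#D / (κ v))` and `H(X | f X) ≥ H(X) - log #D + log κ + log v`
* `hc_le_ex` : for every random box `Y ∋ X` : `H(X | Y) ≤ E log (mx D * v Y)`
-/

set_option autoImplicit false

namespace Vale.Agent.P122.H286

open Finset Vale.Agent.P127 Vale.Agent.P127.Stk

/-- a family of boxes -/
structure BF (T W : Type*) where
  inc : T → W → Prop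
  F : W → Prop
  v : W → ℝ
  v1 : ∀ w, F w → 1 ≤ v w
  ne : ∃ w, F w

namespace BF

variable {T W : Type*} (B : BF T W)

/-- the tubes of `D` in the box `w` -/
noncomputable def ins (D : Finset T) (w : W) : Finset T := by
  classical
  exact D.filter fun S => B.inc S w

theorem mem_ins {D : Finset T} {w : W} {S : T} : S ∈ B.ins D w ↔ S ∈ D ∧ B.inc S w := by
  classical
  unfold ins
  exact Finset.mem_filter

theorem ins_mono {D D' : Finset T} (h : D' ⊆ D) (w : W) : B.ins D' w ⊆ B.ins D w := fun S hS => by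
  rw [mem_ins] at hS ⊢
  exact ⟨h hS.1, hS.2⟩

/-- the maximal density -/
noncomputable def mx (D : Finset T) : ℝ := sSup {x | ∃ w, B.F w ∧ x = ((B.ins D w).card : ℝ) / B.v w}

theorem bdd (D : Finset T) : BddAbove {x | ∃ w, B.F w ∧ x = ((B.ins D w).card : ℝ) / B.v w} := by
  refine ⟨D.card, ?_⟩
  rintro x ⟨w, hw, rfl⟩
  have h1 := B.v1 w hw
  have h2 : ((B.ins D w).card : ℝ) ≤ D.card := by
    exact_mod_cast Finset.card_le_card fun S hS => (B.mem_ins.1 hS).1
  refine (div_le_self (Nat.cast_nonneg _) h1).trans h2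

theorem div_le_mx (D : Finset T) {w : W} (hw : B.F w) : ((B.ins D w).card : ℝ) / B.v w ≤ B.mx D :=
  le_csSup (B.bdd D) ⟨w, hw, rfl⟩

theorem card_le (D : Finset T) {w : W} (hw : B.F w) : ((B.ins D w).card : ℝ) ≤ B.mx D * B.v w := by
  have h1 := B.v1 w hw
  have := B.div_le_mx D hw
  rwa [div_le_iff₀ (by linarith)] at this

theorem mx_le (D : Finset T) {κ : ℝ} (h : ∀ w, B.F w → ((B.ins D w).card : ℝ) ≤ κ * B.v w) : B.mx D ≤ κ := by
  obtain ⟨w0, hw0⟩ := B.ne
  refine csSup_le ⟨_, w0, hw0, rfl⟩ ?_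
  rintro x ⟨w, hw, rfl⟩
  have h1 := B.v1 w hw
  rw [div_le_iff₀ (by linarith)]
  exact h w hw

theorem mx_mono {D D' : Finset T} (h : D' ⊆ D) : B.mx D' ≤ B.mx D :=
  B.mx_le D' fun w hw => le_trans (by exact_mod_cast Finset.card_le_card (B.ins_mono h w)) (B.card_le D hw)

theorem mx_nonneg (D : Finset T) : 0 ≤ B.mx D := by
  obtain ⟨w0, hw0⟩ := B.ne
  have h1 := B.v1 w0 hw0
  exact le_trans (div_nonneg (Nat.cast_nonneg _) (by linarith)) (B.div_le_mx D hw0)

theorem mx_le_card (D : Finset T) : B.mx D ≤ D.card :=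
  B.mx_le D fun w hw => by
    have h1 := B.v1 w hw
    have h2 : ((B.ins D w).card : ℝ) ≤ D.card := by
      exact_mod_cast Finset.card_le_card fun S hS => (B.mem_ins.1 hS).1
    have h3 : (0 : ℝ) ≤ D.card := Nat.cast_nonneg _
    nlinarith

theorem one_le_mx {D : Finset T} {S : T} (hS : S ∈ D) {w : W} (hw : B.F w) (hi : B.inc S w) (hv : B.v w = 1) :
    1 ≤ B.mx D := by
  have h1 := B.card_le D hw
  rw [hv, mul_one] at h1
  refine le_trans ?_ h1
  have : 0 < (B.ins D w).card := Finset.card_pos.2 ⟨S, B.mem_ins.2 ⟨hS, hi⟩⟩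
  exact_mod_cast this

/-- **greedy partition** into a low part and boxes of density at least `κ` -/
theorem part {κ : ℝ} (hκ : 0 < κ) (D : Finset T) :
    ∃ (L : Finset T) (f : T → W), GP B.inc B.F (fun w => κ * B.v w) D L f ∧ B.mx L ≤ κ := by
  have : Nonempty W := ⟨B.ne.choose⟩
  obtain ⟨L, f, h⟩ := greedy B.inc B.F (fun w => κ * B.v w) D fun w hw => by
    have := B.v1 w hw
    positivity
  refine ⟨L, f, h, B.mx_le L fun w hw => ?_⟩
  exact (h.light w hw (B.ins L w) (fun S hS => (B.mem_ins.1 hS).1) fun S hS => (B.mem_ins.1 hS).2).le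

section ent

variable {Ω : Type} [Fintype Ω] (P : Law Ω)

/-- entropy at most the logarithm of the number of values -/
theorem H_le_log_card' {A : Type*} (X : Ω → A) (s : Finset A) (h : ∀ ω, 0 < P.w ω → X ω ∈ s) :
    P.H X ≤ Real.log s.card := by
  have h1 := Stk.hc_le_log P X (fun _ => ()) s.card fun ω _ => ⟨s, le_rfl, fun ω' hω' _ => h ω' hω'⟩
  have h2 : Stk.hc P X (fun _ => ()) = P.H X := by
    refine le_antisymm (Stk.hc_le_H P X _) ?_
    unfold Stk.hc
    have h3 : P.H (fun _ : Ω => ()) ≤ 0 := by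
      have := P.H_le_log_card (fun _ : Ω => ())
      simpa using this
    have h4 : P.H X ≤ P.H (fun ω => (X ω, ())) := Stk.H_mono' P fun ω ω' _ _ e => congrArg Prod.fst e
    linarith
  linarith

/-- the entropy of the box of a random tube -/
theorem H_box_le {κ t : ℝ} {D L : Finset T} {f : T → W} (h : GP B.inc B.F (fun w => κ * B.v w) D L f)
    (hκ : 0 < κ) (ht : 0 < t) (X : Ω → T) (hX : ∀ ω, 0 < P.w ω → X ω ∈ D ∧ X ω ∉ L ∧ t ≤ B.v (f (X ω))) :
    P.H (fun ω => f (X ω)) ≤ Real.log D.card - Real.log κ - Real.log t := by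
  classical
  set D' := D.filter fun S => S ∉ L ∧ t ≤ B.v (f S) with hD'
  have h1 := h.card_image_le (D' := D') (t := κ * t) (Finset.filter_subset _ _)
    (fun S hS => (Finset.mem_filter.1 hS).2.1) (fun S hS =>
      mul_le_mul_of_nonneg_left (Finset.mem_filter.1 hS).2.2 hκ.le)
  have h2 := H_le_log_card' P (fun ω => f (X ω)) (D'.image f) fun ω hω =>
    Finset.mem_image_of_mem _ (Finset.mem_filter.2 ⟨(hX ω hω).1, (hX ω hω).2⟩)
  obtain ⟨ω0, hω0⟩ : ∃ ω, 0 < P.w ω := by
    by_contra hcon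
    push Not at hcon
    have : ∑ ω, P.w ω ≤ 0 := Finset.sum_nonpos fun ω _ => hcon ω
    rw [P.sum_one] at this
    linarith
  have h3 : 0 < (D'.image f).card := Finset.card_pos.2 ⟨f (X ω0), Finset.mem_image_of_mem _
    (Finset.mem_filter.2 ⟨(hX ω0 hω0).1, (hX ω0 hω0).2⟩)⟩
  have h4 : (0 : ℝ) < (D'.image f).card := by exact_mod_cast h3
  have h5 : Real.log ((D'.image f).card * (κ * t)) ≤ Real.log D.card := Real.log_le_log (by positivity) h1
  rw [Real.log_mul (by positivity) (by positivity), Real.log_mul hκ.ne' ht.ne'] at h5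
  linarith

/-- **robust lower bound** -/
theorem le_hc_box {κ t : ℝ} {D L : Finset T} {f : T → W} (h : GP B.inc B.F (fun w => κ * B.v w) D L f)
    (hκ : 0 < κ) (ht : 0 < t) (X : Ω → T) (hX : ∀ ω, 0 < P.w ω → X ω ∈ D ∧ X ω ∉ L ∧ t ≤ B.v (f (X ω))) :
    P.H X - Real.log D.card + Real.log κ + Real.log t ≤ Stk.hc P X (fun ω => f (X ω)) := by
  have h1 := B.H_box_le P h hκ ht X hX
  have h2 : P.H X ≤ P.H (fun ω => (X ω, f (X ω))) := Stk.H_mono' P fun ω ω' _ _ e => congrArg Prod.fst e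
  unfold Stk.hc
  linarith

/-- counting bound with a variable number of values -/
theorem hc_le_ex_log {A C : Type*} (X : Ω → A) (Y : Ω → C) (s : C → Finset A) (u : C → ℝ)
    (hX : ∀ ω, 0 < P.w ω → X ω ∈ s (Y ω)) (hu : ∀ ω, 0 < P.w ω → ((s (Y ω)).card : ℝ) ≤ u (Y ω)) :
    Stk.hc P X Y ≤ P.ex fun ω => Real.log (u (Y ω)) := by
  classical
  have hpos : ∀ ω, 0 < P.w ω → (0 : ℝ) < (s (Y ω)).card := fun ω hω => by
    exact_mod_cast Finset.card_pos.2 ⟨_, hX ω hω⟩
  have hg := P.gibbs_cond X Y (fun x y => if x ∈ s y then 1 / ((s y).card : ℝ) else 0)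
    (fun x y => by split_ifs <;> positivity) ?_ (fun ω hω => by
      rw [if_pos (hX ω hω)]
      have := hpos ω hω
      positivity)
  · refine le_trans (hg : Stk.hc P X Y ≤ _) (P.ex_mono fun ω hω => ?_)
    rw [if_pos (hX ω hω), one_div, Real.log_inv, neg_neg]
    exact Real.log_le_log (hpos ω hω) (hu ω hω)
  · intro y G
    rw [← Finset.sum_filter, Finset.sum_const, nsmul_eq_mul, mul_one_div]
    refine div_le_one_of_le₀ ?_ (Nat.cast_nonneg _)
    exact_mod_cast Finset.card_le_card fun x hx => (Finset.mem_filter.1 hx).2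

/-- **upper bound** : every random box -/
theorem hc_le_ex {D : Finset T} {E : Type*} (X : Ω → T) (Y : Ω → W) (Z : Ω → E)
    (hX : ∀ ω, 0 < P.w ω → X ω ∈ D ∧ B.F (Y ω) ∧ B.inc (X ω) (Y ω)) :
    Stk.hc P X (fun ω => (Y ω, Z ω)) ≤ Real.log (B.mx D) + P.ex fun ω => Real.log (B.v (Y ω)) := by
  classical
  have h1 := hc_le_ex_log P X Y (fun w => B.ins D w) (fun w => B.mx D * B.v w)
    (fun ω hω => B.mem_ins.2 ⟨(hX ω hω).1, (hX ω hω).2.2⟩) (fun ω hω => B.card_le D (hX ω hω).2.1)
  have h2 : Stk.hc P X (fun ω => (Y ω, Z ω)) ≤ Stk.hc P X Y :=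
    Stk.hc_mono_right P X fun ω ω' _ _ e => congrArg Prod.fst e
  have h3 : (P.ex fun ω => Real.log (B.mx D * B.v (Y ω))) =
      P.ex (fun _ => Real.log (B.mx D)) + P.ex fun ω => Real.log (B.v (Y ω)) := by
    rw [← P.ex_add]
    refine P.ex_congr fun ω hω => ?_
    have h4 := B.v1 _ (hX ω hω).2.1
    have h5 : 0 < B.mx D := by
      have h6 := B.card_le D (hX ω hω).2.1
      have h7 : (0 : ℝ) < (B.ins D (Y ω)).card := by
        exact_mod_cast Finset.card_pos.2 ⟨X ω, B.mem_ins.2 ⟨(hX ω hω).1, (hX ω hω).2.2⟩⟩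
      by_contra hcon
      push Not at hcon
      nlinarith
    exact Real.log_mul h5.ne' (by positivity)
  rw [h3, P.ex_const] at h1
  linarith

end ent

end BF

end Vale.Agent.P122.H286
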