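import Mathlib

/-!
# P122 / H286 : greedy deletion (the combinatorial core of robust boxes)

`core` : if a nonnegative matrix has total mass larger than the sum of all row and column
thresholds, there is a sub-rectangle of positive mass all of whose rows and columns keep at least
their threshold.
-/

set_option autoImplicit false

namespace Vale.Agent.P122.H286

open Finset

variable {A B : Type*} [DecidableEq A] [DecidableEq B]

/-- greedy deletion -/
theorem core (w : A → B → ℝ) (r : A → ℝ) (c : B → ℝ) (S : Finset A) (T : Finset B)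
    (hr : ∀ a ∈ S, 0 ≤ r a) (hc : ∀ b ∈ T, 0 ≤ c b)
    (h : ∑ a ∈ S, r a + ∑ b ∈ T, c b < ∑ a ∈ S, ∑ b ∈ T, w a b) :
    ∃ S' ⊆ S, ∃ T' ⊆ T, 0 < ∑ a ∈ S', ∑ b ∈ T', w a b ∧
      (∀ a ∈ S', r a < ∑ b ∈ T', w a b) ∧ ∀ b ∈ T', c b < ∑ a ∈ S', w a b := by
  classical
  -- all pairs which keep the inequality
  let F : Finset (Finset A × Finset B) := (S.powerset ×ˢ T.powerset).filter fun p =>
    ∑ a ∈ p.1, r a + ∑ b ∈ p.2, c b < ∑ a ∈ p.1, ∑ b ∈ p.2, w a b
  have hF : F.Nonempty := ⟨(S, T), by simp [F, h]⟩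
  obtain ⟨p, hp, hmin⟩ := F.exists_min_image (fun p => p.1.card + p.2.card) hF
  have hp' : (p.1 ⊆ S ∧ p.2 ⊆ T) ∧
      ∑ a ∈ p.1, r a + ∑ b ∈ p.2, c b < ∑ a ∈ p.1, ∑ b ∈ p.2, w a b := by
    simpa [F] using hp
  obtain ⟨⟨h1, h2⟩, h3⟩ := hp'
  refine ⟨p.1, h1, p.2, h2, ?_, ?_, ?_⟩
  · refine lt_of_le_of_lt ?_ h3
    exact add_nonneg (sum_nonneg fun a ha => hr a (h1 ha)) (sum_nonneg fun b hb => hc b (h2 hb))
  · intro a ha
    by_contra hcon
    push Not at hcon
    have h4 : (p.1.erase a, p.2) ∈ F := by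
      simp only [F, mem_filter, mem_product, mem_powerset]
      refine ⟨⟨(erase_subset _ _).trans h1, h2⟩, ?_⟩
      have e1 := Finset.add_sum_erase p.1 r ha
      have e2 := Finset.add_sum_erase p.1 (fun a => ∑ b ∈ p.2, w a b) ha
      linarith
    have h5 := hmin _ h4
    have h6 : (p.1.erase a).card < p.1.card := Finset.card_erase_lt_of_mem ha
    simp only at h5
    omega
  · intro b hb
    by_contra hcon
    push Not at hcon
    have h4 : (p.1, p.2.erase b) ∈ F := by
      simp only [F, mem_filter, mem_product, mem_powerset]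
      refine ⟨⟨h1, (erase_subset _ _).trans h2⟩, ?_⟩
      have e1 := Finset.add_sum_erase p.2 c hb
      have e2 := Finset.add_sum_erase p.2 (fun b => ∑ a ∈ p.1, w a b) hb
      rw [sum_comm] at h3
      rw [sum_comm]
      linarith
    have h5 := hmin _ h4
    have h6 : (p.2.erase b).card < p.2.card := Finset.card_erase_lt_of_mem hb
    simp only at h5
    omega

end Vale.Agent.P122.H286
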