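import Mathlib

/-!
# P122 / H286 : greedy partition into heavy boxes

`inc S w` : the tube `S` is in the box `w`;  `F w` : the box `w` is admissible;  `thr w` : the number of tubes a heavy
box must have.  `greedy` : a finite set `D` of tubes is the disjoint union of a light part `L` and of fibres of a map
`f` into admissible boxes, every used box has at least `thr` tubes in its fibre, and no admissible box has `thr` tubes
of the light part.
-/

set_option autoImplicit false

namespace Vale.Agent.P122.H286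

open Finset

variable {T W : Type*}

/-- the greedy partition -/
structure GP (inc : T → W → Prop) (F : W → Prop) (thr : W → ℝ) (D L : Finset T) (f : T → W) : Prop where
  sub : L ⊆ D
  adm : ∀ S ∈ D, S ∉ L → F (f S) ∧ inc S (f S)
  heavy : ∀ S ∈ D, S ∉ L → ∃ U : Finset T, U ⊆ D ∧ (∀ S' ∈ U, S' ∉ L ∧ f S' = f S) ∧ thr (f S) ≤ U.card
  light : ∀ w, F w → ∀ U : Finset T, U ⊆ L → (∀ S ∈ U, inc S w) → (U.card : ℝ) < thr w

/-- **greedy partition** -/
theorem greedy [Nonempty W] (inc : T → W → Prop) (F : W → Prop) (thr : W → ℝ) (D : Finset T) :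
    (∀ w, F w → 0 < thr w) → ∃ (L : Finset T) (f : T → W), GP inc F thr D L f := by
  classical
  intro hthr
  induction D using Finset.strongInduction with
  | H D ih =>
    by_cases h : ∃ w, F w ∧ thr w ≤ ((D.filter fun S => inc S w).card : ℝ)
    · obtain ⟨w, hw, hcard⟩ := h
      set U := D.filter fun S => inc S w with hU
      have hUD : U ⊆ D := Finset.filter_subset _ _
      have hUne : U.Nonempty := by
        rw [← Finset.card_pos]
        have : (0 : ℝ) < U.card := lt_of_lt_of_le (hthr w hw) hcard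
        exact_mod_cast this
      have hss : D \ U ⊂ D := Finset.sdiff_ssubset hUD hUne
      obtain ⟨L, f, hg⟩ := ih (D \ U) hss
      refine ⟨L, fun S => if S ∈ U then w else f S, ?_⟩
      have hLU : ∀ S ∈ L, S ∉ U := fun S hS => (Finset.mem_sdiff.1 (hg.sub hS)).2
      refine ⟨hg.sub.trans Finset.sdiff_subset, ?_, ?_, hg.light⟩
      · intro S hS hSL
        by_cases hSU : S ∈ U
        · simp only [hSU, if_true]
          exact ⟨hw, (Finset.mem_filter.1 hSU).2⟩
        · simp only [hSU, if_false]
          exact hg.adm S (Finset.mem_sdiff.2 ⟨hS, hSU⟩) hSL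
      · intro S hS hSL
        by_cases hSU : S ∈ U
        · refine ⟨U, hUD, fun S' hS' => ⟨fun h' => hLU S' h' hS', ?_⟩, ?_⟩
          · simp only [hS', hSU, if_true]
          · simpa only [hSU, if_true] using hcard
        · obtain ⟨U', hU'D, hU', hc⟩ := hg.heavy S (Finset.mem_sdiff.2 ⟨hS, hSU⟩) hSL
          refine ⟨U', hU'D.trans Finset.sdiff_subset, fun S' hS' => ⟨(hU' S' hS').1, ?_⟩, ?_⟩
          · have h1 : S' ∉ U := (Finset.mem_sdiff.1 (hU'D hS')).2
            simp only [h1, hSU, if_false]
            exact (hU' S' hS').2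
          · simpa only [hSU, if_false] using hc
    · push Not at h
      obtain ⟨w0⟩ := ‹Nonempty W›
      refine ⟨D, fun _ => w0, subset_rfl, fun S hS hS' => absurd hS hS', fun S hS hS' => absurd hS hS', ?_⟩
      intro w hw U hU hinc
      refine lt_of_le_of_lt ?_ (h w hw)
      exact_mod_cast Finset.card_le_card fun S hS => Finset.mem_filter.2 ⟨hU hS, hinc S hS⟩

namespace GP

variable {inc : T → W → Prop} {F : W → Prop} {thr : W → ℝ} {D L : Finset T} {f : T → W}

/-- the number of used boxes: the sum of the thresholds is at most the number of tubes -/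
theorem sum_thr_le [DecidableEq W] (h : GP inc F thr D L f) (A : Finset W)
    (hA : ∀ w ∈ A, ∃ S ∈ D, S ∉ L ∧ f S = w) : ∑ w ∈ A, thr w ≤ (D.card : ℝ) := by
  classical
  have h1 : ∀ w ∈ A, thr w ≤ ((D.filter fun S => f S = w ∧ S ∉ L).card : ℝ) := by
    intro w hw
    obtain ⟨S, hS, hSL, rfl⟩ := hA w hw
    obtain ⟨U, hU, hU', hc⟩ := h.heavy S hS hSL
    refine hc.trans (Nat.cast_le.2 (Finset.card_le_card fun S' hS' => ?_))
    exact Finset.mem_filter.2 ⟨hU hS', (hU' S' hS').2, (hU' S' hS').1⟩
  refine (Finset.sum_le_sum h1).trans ?_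
  rw [← Nat.cast_sum]
  have h2 : ∑ w ∈ A, (D.filter fun S => f S = w ∧ S ∉ L).card =
      (A.biUnion fun w => D.filter fun S => f S = w ∧ S ∉ L).card := by
    rw [Finset.card_biUnion]
    intro w _ w' _ hww
    rw [Function.onFun, Finset.disjoint_left]
    intro S hS hS'
    exact hww ((Finset.mem_filter.1 hS).2.1.symm.trans (Finset.mem_filter.1 hS').2.1)
  rw [h2]
  exact_mod_cast Finset.card_le_card fun S hS => by
    obtain ⟨w, _, hw⟩ := Finset.mem_biUnion.1 hS
    exact (Finset.mem_filter.1 hw).1

/-- the number of used boxes with a threshold at least `t` -/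
theorem card_image_le [DecidableEq W] (h : GP inc F thr D L f) {D' : Finset T} (hD' : D' ⊆ D)
    (hL : ∀ S ∈ D', S ∉ L) {t : ℝ} (ht : ∀ S ∈ D', t ≤ thr (f S)) :
    ((D'.image f).card : ℝ) * t ≤ D.card := by
  refine le_trans ?_ (h.sum_thr_le (D'.image f) fun w hw => ?_)
  · rw [← nsmul_eq_mul]
    refine Finset.card_nsmul_le_sum _ _ _ fun w hw => ?_
    obtain ⟨S, hS, rfl⟩ := Finset.mem_image.1 hw
    exact ht S hS
  · obtain ⟨S, hS, rfl⟩ := Finset.mem_image.1 hw
    exact ⟨S, hD' hS, hL S hS, rfl⟩

end GP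

end Vale.Agent.P122.H286
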