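import Vale.Agent.P122.H286.En
import Vale.Agent.P122.H616.R0

/-!
# P122 / H286 : the greedy step for almost minimal structures

`lpot F b D = log2 (mx_b D)` is a potential in the sense of `H616`.  `greedy_step` : an almost minimal structure with
slack less than `δ` has a refinement, almost minimal again, all of whose nodes of level `c ≤ K` are in the high part of
the greedy partition of `V.D c` with threshold `2^(lmx - δ)`, with planks of one shape.
-/

set_option autoImplicit false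

namespace Vale.Agent.P122.H286

open Finset Vale.Agent.P122.C2 Vale.Agent.P122.H616

variable {C : ℝ} {n K : ℕ}

/-- the potential of the boxes -/
noncomputable def lpot (F : Amp C n K) (b : ℕ) (D : Finset Nd) : ℝ := lmx F.s n b D

theorem lpot_ok (F : Amp C n K) : PotOk (lpot F) :=
  ⟨fun _ _ _ h h' => lmx_mono _ _ _ h' h, fun _ _ h => lmx_nonneg _ _ _ h⟩

/-- the loss of the greedy step -/
noncomputable def gls (n K : ℕ) : ℝ := ((los (nlab (K * n)) n K : ℕ) : ℝ) ^ (K + 1)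

theorem one_le_gls (n K : ℕ) : 1 ≤ gls n K := by
  unfold gls
  refine one_le_pow₀ ?_
  have := los_pos (n := n) (i := K) (nlab_pos (K * n))
  exact_mod_cast this

/-- **the greedy step** -/
theorem greedy_step {F : Amp C n K} {A t δ : ℝ} {V : Val} {ρ : ℝ} {a : ℕ → ℝ} {J : ℕ → ℕ} (hA : 0 ≤ A)
    (h : Min F (lpot F) A t V ρ a J) (hδ : A * Real.logb 2 (gls n K) + t < δ) :
    ∃ (V' : Val) (ρ' : ℝ) (J' : ℕ → ℕ) (Lo : ℕ → Finset Nd) (f : ℕ → Nd → Pk) (kk jj : ℕ → ℕ), V'.Le V ∧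
      Min F (lpot F) A (t + A * Real.logb 2 (gls n K)) V' ρ' a J' ∧ ρ / gls n K ≤ ρ' ∧
      (V.X.card : ℝ) ≤ gls n K * V'.X.card ∧
      (∀ c, GP (nbf F.s n c).inc (nbf F.s n c).F
        (fun w => (2 : ℝ) ^ (lmx F.s n c (V.D F.s n c) - δ) * (nbf F.s n c).v w) (V.D F.s n c) (Lo c) (f c)) ∧
      ∀ c, c ≤ K → ∀ S ∈ V'.D F.s n c, S ∉ Lo c ∧ (f c S).k = kk c ∧ (f c S).j = jj c := by
  classical
  obtain ⟨V', J', Lo, f, h1, h2, h3, -, h5, h6⟩ := greedy_val V ρ a J h.ok h.ρ0 (fun _ => 1) (fun _ _ => zero_le_one)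
    (fun c => (2 : ℝ) ^ (lmx F.s n c (V.D F.s n c) - δ)) fun c => Real.rpow_pos_of_pos (by norm_num) _
  have hX : (V.X.card : ℝ) ≤ gls n K * V'.X.card := by
    simpa [gls] using h6
  have hX' := X_nonempty h.ne hX
  have hρ : ρ / gls n K ≤ ρ / gls n K := le_rfl
  have h2' : V'.Ok F (ρ / gls n K) a J' := h2
  have h7 : ∀ c, c ≤ K → ∃ k j : ℕ, ∀ S ∈ V'.D F.s n c, S ∉ Lo c ∧ (f c S).k = k ∧ (f c S).j = j := by
    intro c hc
    rcases h5 c hc with ⟨-, h8⟩ | h8
    · exfalso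
      have h9 := h.pot_le (lpot_ok F) (one_le_gls n K) h1 h2' hρ hX hc
      have h10 : lmx F.s n c (V'.D F.s n c) ≤ lmx F.s n c (V.D F.s n c) - δ := by
        rw [lmx_le_iff _ _ _ (D_nonempty h2' hX' c hc)]
        exact h8
      unfold lpot at h9
      linarith
    · exact h8
  choose! kk jj hkj using h7
  exact ⟨V', ρ / gls n K, J', Lo, f, kk, jj, h1, h.step (lpot_ok F) hA (one_le_gls n K) h1 h2' hρ hX, hρ, hX, h3, hkj⟩

end Vale.Agent.P122.H286
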