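import Vale.Agent.P122.H286.Dens
import Vale.Agent.P127.U.Defs

/-!
# P122 / H286 : planks and labels

A plank `w` (`Pk`) : time block, angle `θ`, digits `k ≤ j ≤ N`, centre `p` of the positions, centre `v` of the slopes.
`inPk w t X s` : the line with position `X`, slope `s` in the block `t` is in the plank.

* `pkF pos slp tm N` : the family of boxes of planks on any type of tubes
* `lab_mem` : given the plank, the label `U.lab θ k j (fract X, s)` together with `⌊X⌋` takes at most `7 ^ 6` values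
-/

set_option autoImplicit false

namespace Vale.Agent.P122.H286

open Finset Vale.Agent.P127 Vale.Agent.P127.Stk Vale.Agent.P127.U

/-- plank -/
structure Pk where
  t : ℤ
  θ : ℝ
  k : ℕ
  j : ℕ
  p : Fin 2 → ℝ
  v : Fin 2 → ℝ

/-- the line `(X, s)` of the block `t` is in the plank `w` -/
def inPk (w : Pk) (t : ℤ) (X s : Fin 2 → ℝ) : Prop :=
  t = w.t ∧
  |co w.θ (fun i => X i - w.p i) 0| ≤ (1 / 2 : ℝ) ^ w.k ∧ |co w.θ (fun i => X i - w.p i) 1| ≤ (1 / 2 : ℝ) ^ w.j ∧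
  |co w.θ (fun i => s i - w.v i) 0| ≤ (1 / 2 : ℝ) ^ w.k ∧ |co w.θ (fun i => s i - w.v i) 1| ≤ (1 / 2 : ℝ) ^ w.j

/-- the family of planks of precision at most `N` -/
noncomputable def pkF {T : Type*} (pos slp : T → Fin 2 → ℝ) (tm : T → ℤ) (N : ℕ) : BF T Pk where
  inc S w := inPk w (tm S) (pos S) (slp S)
  F w := w.k ≤ w.j ∧ w.j ≤ N ∧ |w.θ| ≤ 4
  v w := 2 ^ (2 * N - (w.k + w.j))
  v1 w _ := one_le_pow₀ (by norm_num)
  ne := ⟨⟨0, 0, 0, 0, 0, 0⟩, le_rfl, Nat.zero_le _, by norm_num⟩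

theorem co_rot (θ q : ℝ) (u : Fin 2 → ℝ) :
    co q u 0 = Real.cos (q - θ) * co θ u 0 + Real.sin (q - θ) * co θ u 1 ∧
    co q u 1 = -Real.sin (q - θ) * co θ u 0 + Real.cos (q - θ) * co θ u 1 := by
  unfold co
  simp only [Matrix.cons_val_zero, Matrix.cons_val_one]
  rw [Real.cos_sub, Real.sin_sub]
  have h := Real.sin_sq_add_cos_sq θ
  constructor
  · linear_combination (-Real.cos q * u 0 - Real.sin q * u 1) * h
  · linear_combination (Real.sin q * u 0 - Real.cos q * u 1) * h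

theorem co_add (q : ℝ) (u u' : Fin 2 → ℝ) (i : Fin 2) :
    co q (fun k => u k + u' k) i = co q u i + co q u' i := by
  unfold co
  fin_cases i <;> simp <;> ring

theorem fl1_mem {k : ℕ} {z a : ℝ} (h : |z - a| ≤ 2 * (1 / 2 : ℝ) ^ k) :
    fl1 k z ∈ Finset.Icc (fl1 k a - 3) (fl1 k a + 3) := by
  have h0 : (0 : ℝ) < 2 ^ k := by positivity
  have h1 : (2 : ℝ) ^ k * (1 / 2 : ℝ) ^ k = 1 := by
    rw [← mul_pow]; norm_num
  have h2 := abs_le.1 h
  have h3 : (2 : ℝ) ^ k * z - 2 ^ k * a ≤ 2 := by nlinarith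
  have h4 : -2 ≤ (2 : ℝ) ^ k * z - 2 ^ k * a := by nlinarith
  have f1 := Int.floor_le ((2 : ℝ) ^ k * z)
  have f2 := Int.lt_floor_add_one ((2 : ℝ) ^ k * z)
  have f3 := Int.floor_le ((2 : ℝ) ^ k * a)
  have f4 := Int.lt_floor_add_one ((2 : ℝ) ^ k * a)
  unfold fl1
  rw [Finset.mem_Icc]
  constructor
  · have : ((⌊(2 : ℝ) ^ k * a⌋ - 3 : ℤ) : ℝ) < ⌊(2 : ℝ) ^ k * z⌋ + 1 := by push_cast; linarith
    have : (⌊(2 : ℝ) ^ k * a⌋ - 3 : ℤ) < ⌊(2 : ℝ) ^ k * z⌋ + 1 := by exact_mod_cast this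
    omega
  · have : ((⌊(2 : ℝ) ^ k * z⌋ : ℤ) : ℝ) < ((⌊(2 : ℝ) ^ k * a⌋ + 3 : ℤ) : ℝ) := by push_cast; linarith
    have : (⌊(2 : ℝ) ^ k * z⌋ : ℤ) < (⌊(2 : ℝ) ^ k * a⌋ + 3 : ℤ) := by exact_mod_cast this
    omega

theorem qa_le (m : ℕ) (θ : ℝ) : |qa m θ - θ| ≤ (1 / 2 : ℝ) ^ m := by
  unfold qa fl1
  have h0 : (0 : ℝ) < 2 ^ m := by positivity
  have f1 := Int.floor_le ((2 : ℝ) ^ m * θ)
  have f2 := Int.lt_floor_add_one ((2 : ℝ) ^ m * θ)
  have h1 : (2 : ℝ) ^ m * (1 / 2 : ℝ) ^ m = 1 := by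
    rw [← mul_pow]; norm_num
  have h2 : ((⌊(2 : ℝ) ^ m * θ⌋ : ℤ) : ℝ) / 2 ^ m - θ = ((⌊(2 : ℝ) ^ m * θ⌋ : ℝ) - 2 ^ m * θ) / 2 ^ m := by
    field_simp
  rw [h2, abs_div, abs_of_pos h0, div_le_iff₀ h0, mul_comm ((1 / 2 : ℝ) ^ m), h1, abs_le]
  constructor <;> linarith

/-- coordinates of a vector of the plank in the rounded frame -/
theorem co_qa_le {θ : ℝ} {k j : ℕ} (hkj : k ≤ j) {u : Fin 2 → ℝ} (h0 : |co θ u 0| ≤ (1 / 2 : ℝ) ^ k)
    (h1 : |co θ u 1| ≤ (1 / 2 : ℝ) ^ j) :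
    |co (qa (j - k) θ) u 0| ≤ 2 * (1 / 2 : ℝ) ^ k ∧ |co (qa (j - k) θ) u 1| ≤ 2 * (1 / 2 : ℝ) ^ j := by
  obtain ⟨e0, e1⟩ := co_rot θ (qa (j - k) θ) u
  have hs : |Real.sin (qa (j - k) θ - θ)| ≤ (1 / 2 : ℝ) ^ (j - k) := (Real.abs_sin_le_abs).trans (qa_le _ _)
  have hs1 := Real.abs_sin_le_one (qa (j - k) θ - θ)
  have hc := Real.abs_cos_le_one (qa (j - k) θ - θ)
  have hjk : (1 / 2 : ℝ) ^ j ≤ (1 / 2 : ℝ) ^ k := pow_le_pow_of_le_one (by norm_num) (by norm_num) hkj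
  have hmul : (1 / 2 : ℝ) ^ (j - k) * (1 / 2 : ℝ) ^ k = (1 / 2 : ℝ) ^ j := by
    rw [← pow_add]; congr 1; omega
  have hp : (0 : ℝ) < (1 / 2 : ℝ) ^ k := by positivity
  have hpj : (0 : ℝ) < (1 / 2 : ℝ) ^ j := by positivity
  constructor
  · rw [e0]
    refine (abs_add_le _ _).trans ?_
    rw [abs_mul, abs_mul]
    have a1 : |Real.cos (qa (j - k) θ - θ)| * |co θ u 0| ≤ 1 * (1 / 2 : ℝ) ^ k :=
      mul_le_mul hc h0 (abs_nonneg _) zero_le_one
    have a2 : |Real.sin (qa (j - k) θ - θ)| * |co θ u 1| ≤ 1 * (1 / 2 : ℝ) ^ j :=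
      mul_le_mul hs1 h1 (abs_nonneg _) zero_le_one
    linarith
  · rw [e1]
    refine (abs_add_le _ _).trans ?_
    rw [abs_mul, abs_mul, abs_neg]
    have a1 : |Real.sin (qa (j - k) θ - θ)| * |co θ u 0| ≤ (1 / 2 : ℝ) ^ (j - k) * (1 / 2 : ℝ) ^ k :=
      mul_le_mul hs h0 (abs_nonneg _) (by positivity)
    have a2 : |Real.cos (qa (j - k) θ - θ)| * |co θ u 1| ≤ 1 * (1 / 2 : ℝ) ^ j :=
      mul_le_mul hc h1 (abs_nonneg _) zero_le_one
    rw [hmul] at a1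
    linarith

/-- `fkj` of a vector of the plank -/
theorem fkj_mem {θ : ℝ} {k j : ℕ} (hkj : k ≤ j) {x p c : Fin 2 → ℝ}
    (h0 : |co θ (fun i => x i - p i) 0| ≤ (1 / 2 : ℝ) ^ k) (h1 : |co θ (fun i => x i - p i) 1| ≤ (1 / 2 : ℝ) ^ j) :
    fkj k j (co (qa (j - k) θ) (fun i => x i - c i)) ∈
      Finset.Icc (fl1 k (co (qa (j - k) θ) (fun i => p i - c i) 0) - 3) (fl1 k (co (qa (j - k) θ) (fun i => p i - c i) 0) + 3) ×ˢ
      Finset.Icc (fl1 j (co (qa (j - k) θ) (fun i => p i - c i) 1) - 3) (fl1 j (co (qa (j - k) θ) (fun i => p i - c i) 1) + 3) := by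
  obtain ⟨g0, g1⟩ := co_qa_le hkj h0 h1
  have e : ∀ i, co (qa (j - k) θ) (fun i => x i - c i) i - co (qa (j - k) θ) (fun i => p i - c i) i =
      co (qa (j - k) θ) (fun i => x i - p i) i := by
    intro i
    have h2 := co_add (qa (j - k) θ) (fun i => x i - p i) (fun i => p i - c i) i
    have h3 : (fun k => x k - p k + (p k - c k)) = fun i => x i - c i := by funext k; ring
    rw [h3] at h2
    rw [h2]; ring
  unfold fkj
  rw [Finset.mem_product]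
  refine ⟨fl1_mem ?_, fl1_mem ?_⟩
  · rw [e 0]; exact g0
  · rw [e 1]; exact g1

/-- vectors of the plank are bounded -/
theorem abs_le_of_co {θ : ℝ} {u : Fin 2 → ℝ} (h0 : |co θ u 0| ≤ 1) (h1 : |co θ u 1| ≤ 1) (i : Fin 2) : |u i| ≤ 2 := by
  have e0 : u 0 = Real.cos θ * co θ u 0 - Real.sin θ * co θ u 1 := by
    unfold co
    simp only [Matrix.cons_val_zero, Matrix.cons_val_one]
    linear_combination (-u 0) * Real.sin_sq_add_cos_sq θ
  have e1 : u 1 = Real.sin θ * co θ u 0 + Real.cos θ * co θ u 1 := by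
    unfold co
    simp only [Matrix.cons_val_zero, Matrix.cons_val_one]
    linear_combination (-u 1) * Real.sin_sq_add_cos_sq θ
  have hs := Real.abs_sin_le_one θ
  have hc := Real.abs_cos_le_one θ
  have b1 : |Real.cos θ * co θ u 0| ≤ 1 := by
    rw [abs_mul]; exact mul_le_one₀ hc (abs_nonneg _) h0
  have b2 : |Real.sin θ * co θ u 1| ≤ 1 := by
    rw [abs_mul]; exact mul_le_one₀ hs (abs_nonneg _) h1
  have b3 : |Real.sin θ * co θ u 0| ≤ 1 := by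
    rw [abs_mul]; exact mul_le_one₀ hs (abs_nonneg _) h0
  have b4 : |Real.cos θ * co θ u 1| ≤ 1 := by
    rw [abs_mul]; exact mul_le_one₀ hc (abs_nonneg _) h1
  rw [abs_le] at b1 b2 b3 b4
  fin_cases i
  · show |u 0| ≤ 2
    rw [e0, abs_le]; constructor <;> linarith
  · show |u 1| ≤ 2
    rw [e1, abs_le]; constructor <;> linarith

/-- the fractional part and the integer part of a position -/
noncomputable def fr (X : Fin 2 → ℝ) : Fin 2 → ℝ := fun i => X i - (⌊X i⌋ : ℝ)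

open Classical in
/-- the possible values of the label and the ball in a plank -/
noncomputable def labs (w : Pk) : Finset (Lab × (ℤ × (Fin 2 → ℤ))) :=
  (Fintype.piFinset fun i => Finset.Icc (⌊w.p i⌋ - 3) (⌊w.p i⌋ + 3)).biUnion fun b =>
    ((Finset.Icc (fl1 w.k (co (qa (w.j - w.k) w.θ) (fun i => w.p i - (b i : ℝ)) 0) - 3)
        (fl1 w.k (co (qa (w.j - w.k) w.θ) (fun i => w.p i - (b i : ℝ)) 0) + 3) ×ˢ
      Finset.Icc (fl1 w.j (co (qa (w.j - w.k) w.θ) (fun i => w.p i - (b i : ℝ)) 1) - 3)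
        (fl1 w.j (co (qa (w.j - w.k) w.θ) (fun i => w.p i - (b i : ℝ)) 1) + 3)) ×ˢ
     (Finset.Icc (fl1 w.k (co (qa (w.j - w.k) w.θ) (fun i => w.v i - (0 : ℝ)) 0) - 3)
        (fl1 w.k (co (qa (w.j - w.k) w.θ) (fun i => w.v i - (0 : ℝ)) 0) + 3) ×ˢ
      Finset.Icc (fl1 w.j (co (qa (w.j - w.k) w.θ) (fun i => w.v i - (0 : ℝ)) 1) - 3)
        (fl1 w.j (co (qa (w.j - w.k) w.θ) (fun i => w.v i - (0 : ℝ)) 1) + 3))).image fun z =>
      ((w.k, w.j, fl1 (w.j - w.k) w.θ, z.1, z.2), (w.t, b))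

theorem labs_card (w : Pk) : (labs w).card ≤ 7 ^ 6 := by
  have h7 : ∀ a : ℤ, (Finset.Icc (a - 3) (a + 3)).card = 7 := by
    intro a
    rw [Int.card_Icc]
    have : a + 3 + 1 - (a - 3) = 7 := by ring
    rw [this]; rfl
  classical
  unfold labs
  refine (Finset.card_biUnion_le_card_mul _ _ (7 ^ 4) ?_).trans ?_
  · intro b _
    refine Finset.card_image_le.trans ?_
    rw [Finset.card_product, Finset.card_product, Finset.card_product, h7, h7, h7, h7]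
    norm_num
  · rw [Fintype.card_piFinset]
    simp only [h7, Finset.prod_const, Finset.card_univ, Fintype.card_fin]
    norm_num

/-- **given the plank, the label and the ball take at most `7 ^ 6` values** -/
theorem lab_mem {w : Pk} (hkj : w.k ≤ w.j) {t : ℤ} {X s : Fin 2 → ℝ} (h : inPk w t X s) :
    (lab w.θ w.k w.j (fr X, s), (t, fun i => ⌊X i⌋)) ∈ labs w := by
  obtain ⟨ht, h1, h2, h3, h4⟩ := h
  have hk1 : (1 / 2 : ℝ) ^ w.k ≤ 1 := pow_le_one₀ (by norm_num) (by norm_num)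
  have hj1 : (1 / 2 : ℝ) ^ w.j ≤ 1 := pow_le_one₀ (by norm_num) (by norm_num)
  classical
  unfold labs
  rw [Finset.mem_biUnion]
  refine ⟨fun i => ⌊X i⌋, ?_, ?_⟩
  · rw [Fintype.mem_piFinset]
    intro i
    have := abs_le_of_co (h1.trans hk1) (h2.trans hj1) i
    have h5 := fl1_mem (k := 0) (z := X i) (a := w.p i) (by simpa using this)
    unfold fl1 at h5
    simpa using h5
  · rw [Finset.mem_image]
    refine ⟨(fkj w.k w.j (co (qa (w.j - w.k) w.θ) (fr X)), fkj w.k w.j (co (qa (w.j - w.k) w.θ) s)), ?_, ?_⟩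
    · rw [Finset.mem_product]
      refine ⟨?_, ?_⟩
      · exact fkj_mem hkj (c := fun i => (⌊X i⌋ : ℝ)) h1 h2
      · have := fkj_mem hkj (c := fun _ => (0 : ℝ)) h3 h4
        simpa only [sub_zero] using this
    · rw [ht]
      rfl

/-- the number of values of (label, ball) on a set of tubes, by the number of planks -/
theorem exists_labs {T : Type*} (pos slp : T → Fin 2 → ℝ) (tm : T → ℤ) {N : ℕ} (D : Finset T) (f : T → Pk)
    (s : Finset Pk) (h : ∀ S ∈ D, f S ∈ s ∧ (pkF pos slp tm N).F (f S) ∧ (pkF pos slp tm N).inc S (f S)) :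
    ∃ A : Finset (Lab × (ℤ × (Fin 2 → ℤ))), A.card ≤ 7 ^ 6 * s.card ∧
      ∀ S ∈ D, (lab (f S).θ (f S).k (f S).j (fr (pos S), slp S), (tm S, fun i => ⌊pos S i⌋)) ∈ A := by
  classical
  refine ⟨s.biUnion labs, ?_, ?_⟩
  · rw [mul_comm]
    exact Finset.card_biUnion_le_card_mul _ _ _ fun w _ => labs_card w
  · intro S hS
    obtain ⟨h1, h2, h3⟩ := h S hS
    exact Finset.mem_biUnion.2 ⟨f S, h1, lab_mem h2.1 h3⟩

end Vale.Agent.P122.H286
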