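import Vale.Agent.P122.H286.MinG
import Vale.Agent.P122.H610.Cnts

/-!
# P122 / H286 : RGbox, the greedy boxes of a stable sequence of valid structures

* `W.em c` : the counting excess of the level `c` : limit of `log2 (mx (D c)) / L`
* `BoxOut` : the fields `exU`, `Wok`, `Wfn`, `W1` of `E.RegA`
* `rgbox` : if `em c` does not drop under refinement there is a refinement with boxes
-/

set_option autoImplicit false

namespace Vale.Agent.P122.H286

open Filter Topology Finset Vale.Agent.P127 Vale.Agent.P127.Stk Vale.Agent.P127.U Vale.Agent.P127.U.Sys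
  Vale.Agent.P122.C2 Vale.Agent.P122.E Vale.Agent.P122.H610

variable {K : ℕ} {Z : CS K}

/-- the reached nodes -/
noncomputable def Dn (W : VS Z) (c i : ℕ) : Finset Nd := (W.V i).D (Z.F i).s (Z.n i) c

theorem Dn_ne (W : VS Z) {c : ℕ} (hc : c ≤ K) (i : ℕ) : (Dn W c i).Nonempty :=
  Vale.Agent.P122.H616.D_nonempty (W.ok i) (W.ne i) c hc

/-- the normalised logarithm of the density -/
noncomputable def ld (W : VS Z) (c i : ℕ) : ℝ := lmx (Z.F i).s (Z.n i) c (Dn W c i)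

/-- **counting excess** -/
noncomputable def em (W : VS Z) (c : ℕ) : ℝ := Z.lg (ld W c)

theorem ld_nonneg (W : VS Z) {c : ℕ} (hc : c ≤ K) (i : ℕ) : 0 ≤ ld W c i := lmx_nonneg _ _ _ (Dn_ne W hc i)

theorem em_nonneg (W : VS Z) {c : ℕ} (hc : c ≤ K) (h : Z.OL (ld W c)) : 0 ≤ em W c := by
  refine CS.ge_of_ev h fun ε hε => ?_
  filter_upwards [Z.L_pos] with i hi
  have := ld_nonneg W hc i
  nlinarith

/-- the excess is the least exponent of `E.Dens` -/
theorem em_eq_sInf (W : VS Z) {c : ℕ} (hc : c ≤ K) (h : Z.OL (ld W c)) :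
    sInf {e : ℝ | 0 ≤ e ∧ ∀ ε : ℝ, 0 < ε → ∀ᶠ i in (uf : Filter ℕ),
      Dens (Z.F i).s (Z.n i) c {S | S ∈ Dn W c i} ((2 : ℝ) ^ ((e + ε) * ((K * Z.n i : ℕ) : ℝ)))} = em W c :=
  sInf_dens (L := fun i => K * Z.n i) (Z.ntop.const_mul_atTop' (lt_of_lt_of_le Nat.zero_lt_one Z.K1))
    (fun i => (Z.F i).s) Z.n c (Dn W c) (Eventually.of_forall fun i => Dn_ne W hc i) h

theorem gls_big : Z.Big fun i => (gls (Z.n i) K)⁻¹ := by
  have h1 : Z.Big fun i => (((K : ℝ) * Z.n i + 2)⁻¹ ^ 2 * (((2 : ℝ) * Z.n i + 1)⁻¹) ^ K) ^ (K + 1) := by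
    refine CS.Big.pow (CS.Big.mul (CS.Big.pow (CS.Big.inv_lin _ _ ?_ (by norm_num)) 2)
      (CS.Big.pow (CS.Big.inv_lin _ _ (by norm_num) (by norm_num)) K)) (K + 1)
    exact_mod_cast lt_of_lt_of_le Nat.zero_lt_one Z.K1
  refine h1.mono (Eventually.of_forall fun i => ?_)
  unfold gls
  rw [← inv_pow]
  refine pow_le_pow_left₀ (by positivity) ?_ _
  unfold los nlab
  push_cast
  rw [inv_pow, inv_pow, ← mul_inv]
  refine inv_anti₀ (by positivity) ?_
  refine mul_le_mul_of_nonneg_right ?_ (by positivity)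
  have : (0 : ℝ) ≤ (K : ℝ) * Z.n i := by positivity
  nlinarith

/-- the output of the greedy step -/
structure BoxOut (F : Flg K) (H e : ℕ → ℝ) (W : ℕ → F.S.BX) (kk jj : ℕ → ℕ → ℕ) : Prop where
  exU : ∀ c, c ≤ K → ExU F c (e c)
  Wok : ∀ c, c ≤ K → ∀ᶠ i in (uf : Filter ℕ), ∀ ω, 0 < (F.S.P i).w ω → (W c i).l ω = F.ln c i ω ∧ |(W c i).θ ω| ≤ 4 ∧
    (W c i).k ω = kk c i ∧ (W c i).j ω = jj c i ∧ kk c i ≤ jj c i ∧ jj c i ≤ c * F.n i
  Wfn : ∀ c, c ≤ K → Sys.Fn (fun i ω => (W c i).θ ω) (F.N c)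
  W1 : ∀ c, c ≤ K → Cnt F.S (Sys.pr (BX.lab (W c)) (F.ball c)) (one (S := F.S))
    (H c - e c - (2 * c / K - F.S.nu (kk c) - F.S.nu (jj c)) + 1 / K)

/-- **RGbox** -/
theorem rgbox_incl (W : VS Z) (hOL : ∀ c, c ≤ K → Z.OL (ld W c))
    (hst : ∀ W' : VS Z, W'.Le W → ∀ c, c ≤ K → em W c ≤ em W' c) (H : ℕ → ℝ)
    (hD : ∀ c, c ≤ K → ∀ ε : ℝ, 0 < ε → ∀ᶠ i in (uf : Filter ℕ), ((Dn W c i).card : ℝ) ≤ (2 : ℝ) ^ ((H c + ε) * Z.L i)) :
    ∃ (W' : VS Z), W'.Le W ∧ (∀ i, (W'.V i).Le (W.V i)) ∧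
      ∃ (B : ℕ → W'.flg.S.BX) (kk jj : ℕ → ℕ → ℕ), BoxOut W'.flg H (em W) B kk jj := by
  classical
  have hK0 : (0 : ℝ) < K := by exact_mod_cast lt_of_lt_of_le Nat.zero_lt_one Z.K1
  -- the finite refinements
  have hfin := fun i => greedy_val (W.V i) (W.ρ i) (W.a i) (W.J i) (W.ok i) (W.ρpos i) (fun _ => 1)
    (fun _ _ => zero_le_one) (fun c => (2 : ℝ) ^ (ld W c i - Z.n i)) fun c => Real.rpow_pos_of_pos (by norm_num) _
  choose V' J' Lo f h1 h2 h3 h4 h5 h6 using hfin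
  have hX : ∀ i, ((W.V i).X.card : ℝ) ≤ gls (Z.n i) K * (V' i).X.card := fun i => by simpa [gls] using h6 i
  have hne : ∀ i, (V' i).X.Nonempty := fun i => Vale.Agent.P122.H616.X_nonempty (W.ne i) (hX i)
  have hg0 : ∀ i, 0 < gls (Z.n i) K := fun i => lt_of_lt_of_le one_pos (one_le_gls _ _)
  let W' : VS Z :=
    { V := V'
      ρ := fun i => W.ρ i / gls (Z.n i) K
      a := W.a
      J := J'
      ok := h2
      ne := hne
      tim := fun i x hx => W.tim i x ((h1 i).1 hx)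
      ρpos := fun i => div_pos (W.ρpos i) (hg0 i)
      ρ1 := fun i => (div_le_self (W.ρpos i).le (one_le_gls _ _)).trans (W.ρ1 i)
      ρbig := by
        have := W.ρbig.mul gls_big
        simpa only [div_eq_mul_inv] using this }
  have hle : W'.Le W := by
    refine ⟨by first | exact Eventually.of_forall h1 | exact h1,
      by first | exact Eventually.of_forall fun _ => rfl | exact fun _ => rfl, ?_⟩
    refine gls_big.mono (Eventually.of_forall fun i => ?_)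
    have hc : (0 : ℝ) < (W.V i).X.card := by exact_mod_cast (W.ne i).card_pos
    show (gls (Z.n i) K)⁻¹ ≤ ((V' i).X.card : ℝ) / (W.V i).X.card
    rw [le_div_iff₀ hc, inv_mul_le_iff₀ (hg0 i)]
    exact hX i
  -- no low level
  have hlow : ∀ c, c ≤ K → ∀ᶠ i in (uf : Filter ℕ), ∃ k j : ℕ, ∀ S ∈ Dn W' c i,
      S ∉ Lo i c ∧ (f i c S).k = k ∧ (f i c S).j = j := by
    intro c hc
    by_contra hcon
    rw [← Ultrafilter.eventually_not] at hcon
    have h7 : ∀ᶠ i in (uf : Filter ℕ), ld W' c i ≤ ld W c i - Z.n i := by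
      filter_upwards [hcon] with i hi
      rcases h5 i c hc with ⟨-, h8⟩ | h8
      · exact (lmx_le_iff _ _ _ (Dn_ne W' hc i) _).2 h8
      · exact absurd h8 hi
    have hOL' : Z.OL (ld W' c) := by
      obtain ⟨C, hC⟩ := hOL c hc
      refine CS.OL.of_le (c := C) (Eventually.of_forall fun i => ld_nonneg W' hc i) ?_
      filter_upwards [h7, hC, Z.L_pos] with i a1 a2 a3
      have a4 := (abs_le.1 a2).2
      rw [div_le_iff₀ a3] at a4
      have a5 : (0 : ℝ) ≤ Z.n i := Nat.cast_nonneg _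
      linarith
    have h8 : em W' c ≤ em W c - 1 / K := by
      refine CS.le_of_ev hOL' fun ε hε => ?_
      filter_upwards [h7, CS.le_lg (hOL c hc) hε] with i a1 a2
      have a3 : (Z.n i : ℝ) = 1 / K * Z.L i := by
        rw [Z.L_eq]
        field_simp
      have a4 : ld W c i ≤ (em W c + ε) * Z.L i := a2
      nlinarith
    have h9 := hst W' hle c hc
    have h10 : (0 : ℝ) < 1 / K := by positivity
    linarith
  have hlow' : ∀ᶠ i in (uf : Filter ℕ), ∀ c, c ≤ K → ∃ k j : ℕ, ∀ S ∈ Dn W' c i,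
      S ∉ Lo i c ∧ (f i c S).k = k ∧ (f i c S).j = j := by
    have : ∀ c ∈ Finset.range (K + 1), ∀ᶠ i in (uf : Filter ℕ), ∃ k j : ℕ, ∀ S ∈ Dn W' c i,
      S ∉ Lo i c ∧ (f i c S).k = k ∧ (f i c S).j = j := fun c hc => hlow c (Nat.lt_succ_iff.1 (Finset.mem_range.1 hc))
    have h8 := (Filter.eventually_all_finset (Finset.range (K + 1))).2 this
    filter_upwards [h8] with i hi c hc
    exact hi c (Finset.mem_range.2 (Nat.lt_succ_of_le hc))
  -- the shapes
  have hsh : ∃ kk jj : ℕ → ℕ → ℕ, ∀ c, c ≤ K → ∀ᶠ i in (uf : Filter ℕ), ∀ S ∈ Dn W' c i,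
      S ∉ Lo i c ∧ (f i c S).k = kk c i ∧ (f i c S).j = jj c i := by
    have hex : ∀ c i, ∃ k j : ℕ, (∃ k j : ℕ, ∀ S ∈ Dn W' c i, S ∉ Lo i c ∧ (f i c S).k = k ∧ (f i c S).j = j) →
        ∀ S ∈ Dn W' c i, S ∉ Lo i c ∧ (f i c S).k = k ∧ (f i c S).j = j := by
      intro c i
      by_cases h : ∃ k j : ℕ, ∀ S ∈ Dn W' c i, S ∉ Lo i c ∧ (f i c S).k = k ∧ (f i c S).j = j
      · obtain ⟨k, j, hkj⟩ := h
        exact ⟨k, j, fun _ => hkj⟩
      · exact ⟨0, 0, fun h' => absurd h' h⟩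
    choose kk jj hkj using hex
    refine ⟨kk, jj, fun c hc => ?_⟩
    filter_upwards [hlow c hc] with i hi
    exact hkj c i hi
  obtain ⟨kk, jj, hkj⟩ := hsh
  refine ⟨W', hle, h1, fun c => gW W'.flg c (fun i => f i c) (kk c) (jj c), kk, jj, ?_⟩
  have hnode : ∀ c, c ≤ K → ∀ i (ω : W'.flg.S.Ω i), W'.flg.N c i ω ∈ Dn W' c i := fun c hc i ω =>
    nd_D (W'.ok i) hc ω.2
  have hDD : ∀ c i, Dn W' c i ⊆ Dn W c i := fun c i => (h1 i).D c
  have key : ∀ c, c ≤ K → _ := fun c hc =>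
    regW W'.flg c Z.K1 (fun i => Dn W c i) (fun i => Lo i c) (fun i => f i c)
      (fun i => (2 : ℝ) ^ (ld W c i - Z.n i)) (kk c) (jj c) (H c) (em W c) (1 / K)
      (Eventually.of_forall fun i => Real.rpow_pos_of_pos (by norm_num) _)
      (Eventually.of_forall fun i => h3 i c) (by
        filter_upwards [hkj c hc] with i hi ω _
        have a1 := hnode c hc i ω
        exact ⟨hDD c i a1, hi _ a1⟩) (fun ε hε => hD c hc ε hε) (by
        intro ε hε
        filter_upwards [CS.lg_le (hOL c hc) hε] with i hi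
        have a1 : (em W c - ε) * Z.L i ≤ ld W c i := hi
        have a3 : (Z.n i : ℝ) = 1 / K * Z.L i := by
          rw [Z.L_eq]
          field_simp
        refine Real.rpow_le_rpow_of_exponent_le (by norm_num) ?_
        show (em W c - 1 / K - ε) * ((K * Z.n i : ℕ) : ℝ) ≤ ld W c i - Z.n i
        have a4 : ((K * Z.n i : ℕ) : ℝ) = Z.L i := rfl
        rw [a4]
        nlinarith)
  refine ⟨fun c hc => ?_, fun c hc => (key c hc).1, fun c hc => (key c hc).2.1, fun c hc => (key c hc).2.2⟩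
  refine exU_of W'.flg c (fun i => Dn W c i) (em W c) (Eventually.of_forall fun i ω _ => hDD c i (hnode c hc i ω)) ?_
  intro ε hε
  filter_upwards [CS.le_lg (hOL c hc) hε] with i hi
  exact (lmx_le_iff _ _ _ (Dn_ne W hc i) _).1 hi

end Vale.Agent.P122.H286
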