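import Vale.Agent.P122.H286.Use
import Vale.Agent.P122.E.Defs

/-!
# P122 / H286 : the optimal planks of a system of flags

* `nbf s n c` : the family of planks for the nodes of level `c`
* `dens_of` : the maximal density `mx` bounds the density in all planks (`E.Dens`)
* `exU_of`, `regW` : the fields `exU`, `Wok`, `Wfn`, `W1` of `E.RegA` from the greedy partition
-/

set_option autoImplicit false

namespace Vale.Agent.P122.H286

open Filter Topology Finset Vale.Agent.P127 Vale.Agent.P127.Stk Vale.Agent.P127.U Vale.Agent.P127.U.Sys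
  Vale.Agent.P122.C2 Vale.Agent.P122.E

/-- the family of planks for the nodes of level `c` -/
noncomputable def nbf (s : ℕ → Z2 → Fin 2 → ℝ) (n c : ℕ) : BF Nd Pk :=
  pkF (fun S : Nd => fun k => (S.o k : ℝ) / 2 ^ (c * n)) (fun S => s c S.τ) (fun S => S.T) (c * n)

/-- **all planks with real widths** -/
theorem dens_of (s : ℕ → Z2 → Fin 2 → ℝ) (n c : ℕ) (D : Finset Nd) {D' : Set Nd} (hD : ∀ S ∈ D', S ∈ D) :
    Dens s n c D' (4 * (nbf s n c).mx D) := by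
  intro θ u1 u2 p v T U hN h12 hu hU
  have h1 := card_plank_le (fun S : Nd => fun k => (S.o k : ℝ) / 2 ^ (c * n)) (fun S => s c S.τ) (fun S => S.T)
    (N := c * n) D (θ := θ) (p := p) (v := v) (t := T) hN h12 hu (U := U) (fun S hS => hD S (hU S hS).1) (by
      intro S hS
      obtain ⟨_, h0, h1, h2, h3, h4⟩ := hU S hS
      exact ⟨h0, h1, h2, h3, h4⟩)
  have h2 : (2 : ℝ) ^ (2 * (c * n)) = 2 ^ (2 * c * n) := by congr 1; ring
  rw [h2] at h1
  have h3 : (nbf s n c).mx D * (4 * (u1 * u2 * 2 ^ (2 * c * n))) =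
      4 * (nbf s n c).mx D * (u1 * u2 * 2 ^ (2 * c * n)) := by ring
  rw [← h3]
  exact h1

theorem floor_div_pow (a : ℤ) (m : ℕ) : ⌊(a : ℝ) / 2 ^ m⌋ = a / 2 ^ m := by
  have h1 : ((2 : ℝ) ^ m) = ((2 ^ m : ℕ) : ℝ) := by push_cast; ring
  rw [h1, Int.floor_div_natCast, Int.floor_intCast]
  push_cast
  ring_nf

section

variable {K : ℕ} (F : Flg K) (c : ℕ)

theorem two_pow_eventually (S : Sys) {ε : ℝ} (hε : 0 < ε) (C : ℝ) :
    ∀ᶠ i in (uf : Filter ℕ), C ≤ (2 : ℝ) ^ (ε * S.L i) := by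
  have h1 : Tendsto (fun i => ε * (S.L i : ℝ)) (uf : Filter ℕ) atTop :=
    (tendsto_natCast_atTop_atTop.comp S.Ltop).const_mul_atTop hε
  filter_upwards [h1.eventually_ge_atTop C] with i hi
  refine hi.trans ?_
  have h2 : (ε * (S.L i : ℝ)) < 2 ^ (ε * (S.L i : ℝ)) := by
    rcases lt_or_ge (ε * (S.L i : ℝ)) 0 with h | h
    · exact h.trans (Real.rpow_pos_of_pos (by norm_num) _)
    · have h3 := Real.add_one_le_exp (ε * (S.L i : ℝ) * Real.log 2)
      have h4 : Real.exp (ε * (S.L i : ℝ) * Real.log 2) = 2 ^ (ε * (S.L i : ℝ)) := by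
        rw [Real.rpow_def_of_pos (by norm_num)]; ring_nf
      have h5 := one_add_mul_self_le_rpow_one_add (s := 1) (by norm_num) (p := ε * (S.L i : ℝ)) 
      rcases lt_or_ge (ε * (S.L i : ℝ)) 1 with h6 | h6
      · have h7 : (1 : ℝ) ≤ 2 ^ (ε * (S.L i : ℝ)) := Real.one_le_rpow (by norm_num) h
        linarith
      · have h7 := h5 h6
        norm_num at h7
        linarith
  exact h2.le

/-- **counting excess** -/
theorem exU_of (D : ℕ → Finset Nd) (e : ℝ)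
    (hN : ∀ᶠ i in (uf : Filter ℕ), ∀ ω, 0 < (F.S.P i).w ω → F.N c i ω ∈ D i)
    (he : ∀ ε : ℝ, 0 < ε → ∀ᶠ i in (uf : Filter ℕ), (nbf (F.s i) (F.n i) c).mx (D i) ≤ (2 : ℝ) ^ ((e + ε) * F.S.L i)) :
    ExU F c e := by
  intro ε hε
  filter_upwards [hN, he (ε / 2) (by positivity), two_pow_eventually F.S (half_pos hε) 4] with i h1 h2 h3
  have h4 := dens_of (F.s i) (F.n i) c (D i) (D' := {S | ∃ ω, 0 < (F.S.P i).w ω ∧ F.N c i ω = S}) (by
    rintro S ⟨ω, hω, rfl⟩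
    exact h1 ω hω)
  intro θ u1 u2 p v T U hN h12 hu hU
  refine (h4 θ u1 u2 p v T U hN h12 hu hU).trans ?_
  have hu1 : 0 < u1 := lt_of_lt_of_le (by positivity) hN
  have hu2 : 0 < u2 := lt_of_lt_of_le hu1 h12
  refine mul_le_mul_of_nonneg_right ?_ (by positivity)
  have h5 : (e + ε) * (F.S.L i : ℝ) = ε / 2 * F.S.L i + (e + ε / 2) * F.S.L i := by ring
  rw [h5, Real.rpow_add (by norm_num)]
  exact mul_le_mul h3 h2 ((nbf (F.s i) (F.n i) c).mx_nonneg _) (Real.rpow_nonneg (by norm_num) _)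

/-- the box of the greedy plank -/
noncomputable def gW (f : ℕ → Nd → Pk) (kk jj : ℕ → ℕ) : F.S.BX :=
  fun i => ⟨F.ln c i, fun ω => (f i (F.N c i ω)).θ, fun _ => kk i, fun _ => jj i⟩

/-- **the optimal planks** -/
theorem regW (hK : 1 ≤ K) (D Lo : ℕ → Finset Nd) (f : ℕ → Nd → Pk) (κ : ℕ → ℝ) (kk jj : ℕ → ℕ) (H e ε₀ : ℝ)
    (hκ : ∀ᶠ i in (uf : Filter ℕ), 0 < κ i)
    (hg : ∀ᶠ i in (uf : Filter ℕ), GP (nbf (F.s i) (F.n i) c).inc (nbf (F.s i) (F.n i) c).F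
      (fun w => κ i * (nbf (F.s i) (F.n i) c).v w) (D i) (Lo i) (f i))
    (hN : ∀ᶠ i in (uf : Filter ℕ), ∀ ω, 0 < (F.S.P i).w ω → F.N c i ω ∈ D i ∧ F.N c i ω ∉ Lo i ∧
      (f i (F.N c i ω)).k = kk i ∧ (f i (F.N c i ω)).j = jj i)
    (hD : ∀ ε : ℝ, 0 < ε → ∀ᶠ i in (uf : Filter ℕ), ((D i).card : ℝ) ≤ (2 : ℝ) ^ ((H + ε) * F.S.L i))
    (hκe : ∀ ε : ℝ, 0 < ε → ∀ᶠ i in (uf : Filter ℕ), (2 : ℝ) ^ ((e - ε₀ - ε) * F.S.L i) ≤ κ i) :
    (∀ᶠ i in (uf : Filter ℕ), ∀ ω, 0 < (F.S.P i).w ω → (gW F c f kk jj i).l ω = F.ln c i ω ∧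
      |(gW F c f kk jj i).θ ω| ≤ 4 ∧ (gW F c f kk jj i).k ω = kk i ∧ (gW F c f kk jj i).j ω = jj i ∧
      kk i ≤ jj i ∧ jj i ≤ c * F.n i) ∧
    Sys.Fn (fun i ω => (gW F c f kk jj i).θ ω) (F.N c) ∧
    Cnt F.S (Sys.pr (BX.lab (gW F c f kk jj)) (F.ball c)) (one (S := F.S))
      (H - e - (2 * c / K - F.S.nu kk - F.S.nu jj) + ε₀) := by
  have hex : ∀ i, ∃ ω, 0 < (F.S.P i).w ω := by
    intro i
    by_contra hcon
    push Not at hcon
    have : ∑ ω, (F.S.P i).w ω ≤ 0 := Finset.sum_nonpos fun ω _ => hcon ω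
    rw [(F.S.P i).sum_one] at this
    linarith
  have hF : ∀ᶠ i in (uf : Filter ℕ), ∀ ω, 0 < (F.S.P i).w ω →
      ((nbf (F.s i) (F.n i) c).F (f i (F.N c i ω)) ∧ (nbf (F.s i) (F.n i) c).inc (F.N c i ω) (f i (F.N c i ω))) := by
    filter_upwards [hg, hN] with i h1 h2 ω hω
    obtain ⟨a1, a2, -⟩ := h2 ω hω
    exact h1.adm _ a1 a2
  have hbd : ∀ᶠ i in (uf : Filter ℕ), kk i ≤ jj i ∧ jj i ≤ c * F.n i := by
    filter_upwards [hF, hN] with i h1 h2
    obtain ⟨ω, hω⟩ := hex i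
    obtain ⟨⟨b1, b2, -⟩, -⟩ := h1 ω hω
    obtain ⟨-, -, c1, c2⟩ := h2 ω hω
    rw [c1, c2] at b1
    rw [c2] at b2
    exact ⟨b1, b2⟩
  refine ⟨?_, ?_, ?_⟩
  · filter_upwards [hF, hbd] with i h1 h2 ω hω
    exact ⟨rfl, (h1 ω hω).1.2.2, rfl, rfl, h2.1, h2.2⟩
  · refine Eventually.of_forall fun i ω ω' _ _ e => ?_
    show (f i (F.N c i ω)).θ = (f i (F.N c i ω')).θ
    rw [e]
  · -- bounded ratios
    have hK0 : (0 : ℝ) < K := by exact_mod_cast hK
    have hLK : ∀ i, (F.S.L i : ℝ) = K * F.n i := fun i => by rw [F.L_eq i]; push_cast; ring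
    have ubj : UB fun i => (jj i : ℝ) / F.S.L i := by
      refine UB.of_le (C := (c : ℝ)) (Eventually.of_forall fun i => by positivity) ?_
      filter_upwards [hbd, F.S.L_pos] with i h1 h2
      have h3 : (0 : ℝ) < F.S.L i := by exact_mod_cast h2
      rw [div_le_iff₀ h3, hLK]
      have h4 : (jj i : ℝ) ≤ c * F.n i := by exact_mod_cast h1.2
      have h5 : (1 : ℝ) ≤ K := by exact_mod_cast hK
      have h6 : (0 : ℝ) ≤ c * F.n i := by positivity
      nlinarith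
    have ubk : UB fun i => (kk i : ℝ) / F.S.L i := by
      obtain ⟨C, hC⟩ := ubj
      refine UB.of_le (C := C) (Eventually.of_forall fun i => by positivity) ?_
      filter_upwards [hbd, hC, F.S.L_pos] with i h1 h2 h3
      have h4 : (0 : ℝ) < F.S.L i := by exact_mod_cast h3
      refine le_trans ?_ ((le_abs_self _).trans h2)
      exact div_le_div_of_nonneg_right (by exact_mod_cast h1.1) h4.le
    intro ε hε
    have hε4 : 0 < ε / 5 := by positivity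
    have tj := (ubj.tendsto).eventually (gt_mem_nhds (lt_add_of_pos_right (F.S.nu jj) hε4))
    have tk := (ubk.tendsto).eventually (gt_mem_nhds (lt_add_of_pos_right (F.S.nu kk) hε4))
    filter_upwards [hg, hN, hF, hbd, hκ, hD (ε / 5) hε4, hκe (ε / 5) hε4, tj, tk, F.S.L_pos,
      two_pow_eventually F.S hε4 (7 ^ 6)] with i g1 g2 g3 g4 g5 g6 g7 g8 g9 g10 g11
    intro ω0 hω0
    have hL0 : (0 : ℝ) < F.S.L i := by exact_mod_cast g10
    have hj' : (jj i : ℝ) ≤ (F.S.nu jj + ε / 5) * F.S.L i := by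
      rw [div_lt_iff₀ hL0] at g8; exact g8.le
    have hk' : (kk i : ℝ) ≤ (F.S.nu kk + ε / 5) * F.S.L i := by
      rw [div_lt_iff₀ hL0] at g9; exact g9.le
    classical
    obtain ⟨A, hA, hA'⟩ := count_labs (fun S : Nd => fun k => (S.o k : ℝ) / 2 ^ (c * F.n i)) (fun S => F.s i c S.τ)
      (fun S => S.T) (N := c * F.n i) g5 g1
      (D' := (D i).filter fun S => S ∉ Lo i ∧ (f i S).k = kk i ∧ (f i S).j = jj i) (Finset.filter_subset _ _)
      (fun S hS => (Finset.mem_filter.1 hS).2.1) (kk := kk i) (jj := jj i) fun S hS => (Finset.mem_filter.1 hS).2.2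
    refine ⟨A, ?_, ?_⟩
    · -- the count
      have hpow : (0 : ℝ) < 2 ^ (2 * (c * F.n i) - (kk i + jj i)) := by positivity
      have e1 : ((2 : ℝ) ^ (2 * (c * F.n i) - (kk i + jj i)) : ℝ) =
          2 ^ ((2 * c / K : ℝ) * F.S.L i - ((kk i : ℝ) + jj i)) := by
        rw [← Real.rpow_natCast]
        congr 1
        rw [Nat.cast_sub (by omega), hLK]
        push_cast
        field_simp
      have h1 : (A.card : ℝ) ≤ 7 ^ 6 * (D i).card / (κ i * 2 ^ (2 * (c * F.n i) - (kk i + jj i))) := by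
        rw [le_div_iff₀ (by positivity)]
        exact hA
      refine h1.trans ?_
      rw [div_le_iff₀ (by positivity), e1]
      have h2 : (7 : ℝ) ^ 6 * (D i).card ≤ 2 ^ (ε / 5 * F.S.L i) * 2 ^ ((H + ε / 5) * F.S.L i) :=
        mul_le_mul g11 g6 (Nat.cast_nonneg _) (Real.rpow_nonneg (by norm_num) _)
      refine h2.trans ?_
      have h3 : (2 : ℝ) ^ ((H - e - (2 * c / K - F.S.nu kk - F.S.nu jj) + ε₀ + ε) * F.S.L i) *
          ((2 : ℝ) ^ ((e - ε₀ - ε / 5) * F.S.L i) * 2 ^ ((2 * c / K : ℝ) * F.S.L i - ((kk i : ℝ) + jj i))) ≤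
          (2 : ℝ) ^ ((H - e - (2 * c / K - F.S.nu kk - F.S.nu jj) + ε₀ + ε) * F.S.L i) *
          (κ i * 2 ^ ((2 * c / K : ℝ) * F.S.L i - ((kk i : ℝ) + jj i))) :=
        mul_le_mul_of_nonneg_left (mul_le_mul_of_nonneg_right g7 (Real.rpow_nonneg (by norm_num) _))
          (Real.rpow_nonneg (by norm_num) _)
      refine le_trans ?_ h3
      rw [← Real.rpow_add (by norm_num), ← Real.rpow_add (by norm_num), ← Real.rpow_add (by norm_num)]
      refine Real.rpow_le_rpow_of_exponent_le (by norm_num) ?_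
      nlinarith
    · intro ω hω _
      obtain ⟨a1, a2, a3, a4⟩ := g2 ω hω
      have h1 := hA' (F.N c i ω) (Finset.mem_filter.2 ⟨a1, a2, a3, a4⟩)
      have e2 : (fun k => ⌊((F.N c i ω).o k : ℝ) / 2 ^ (c * F.n i)⌋) = fun k => (F.N c i ω).o k / 2 ^ (c * F.n i) := by
        funext k
        exact floor_div_pow _ _
      rw [e2] at h1
      exact h1

end

end Vale.Agent.P122.H286
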