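import Vale.Agent.P122.H286.Plank

/-!
# P122 / H286 : the greedy partition for planks, final finite statements

* `count_labs` : on a part `D'` of the high part with one shape `(kk, jj)` the pairs (label, ball) take at most
  `7 ^ 6 #D / (κ 2^(2 N - kk - jj))` values
* `card_plank_le` : the number of tubes of `D` in a plank with real widths `u1 ≤ u2` and any angle is at most
  `mx D * 4 u1 u2 2^(2 N)`
-/

set_option autoImplicit false

namespace Vale.Agent.P122.H286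

open Finset Vale.Agent.P127 Vale.Agent.P127.Stk Vale.Agent.P127.U

section

variable {T : Type*} (pos slp : T → Fin 2 → ℝ) (tm : T → ℤ) {N : ℕ}

/-- **the number of labels** -/
theorem count_labs {κ : ℝ} (hκ : 0 < κ) {D L : Finset T} {f : T → Pk}
    (h : GP (pkF pos slp tm N).inc (pkF pos slp tm N).F (fun w => κ * (pkF pos slp tm N).v w) D L f)
    {D' : Finset T} (hD : D' ⊆ D) (hL : ∀ S ∈ D', S ∉ L) {kk jj : ℕ}
    (hs : ∀ S ∈ D', (f S).k = kk ∧ (f S).j = jj) :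
    ∃ A : Finset (Lab × (ℤ × (Fin 2 → ℤ))), (A.card : ℝ) * (κ * 2 ^ (2 * N - (kk + jj))) ≤ 7 ^ 6 * D.card ∧
      ∀ S ∈ D', (lab (f S).θ kk jj (fr (pos S), slp S), (tm S, fun i => ⌊pos S i⌋)) ∈ A := by
  classical
  obtain ⟨A, hA, hA'⟩ := exists_labs pos slp tm (N := N) D' f (D'.image f) fun S hS =>
    ⟨Finset.mem_image_of_mem _ hS, h.adm S (hD hS) (hL S hS)⟩
  refine ⟨A, ?_, ?_⟩
  · have h1 := h.card_image_le (D' := D') (t := κ * 2 ^ (2 * N - (kk + jj))) hD hL fun S hS => by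
      obtain ⟨e1, e2⟩ := hs S hS
      unfold pkF
      simp only
      rw [e1, e2]
    have h2 : (A.card : ℝ) ≤ 7 ^ 6 * (D'.image f).card := by exact_mod_cast hA
    have h3 : (0 : ℝ) ≤ κ * 2 ^ (2 * N - (kk + jj)) := by positivity
    calc (A.card : ℝ) * (κ * 2 ^ (2 * N - (kk + jj)))
        ≤ 7 ^ 6 * (D'.image f).card * (κ * 2 ^ (2 * N - (kk + jj))) := mul_le_mul_of_nonneg_right h2 h3
      _ = 7 ^ 6 * ((D'.image f).card * (κ * 2 ^ (2 * N - (kk + jj)))) := by ring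
      _ ≤ 7 ^ 6 * D.card := by linarith
  · intro S hS
    have := hA' S hS
    obtain ⟨e1, e2⟩ := hs S hS
    rw [e1, e2] at this
    exact this

/-- dyadic exponent of a width -/
theorem exists_dy {u : ℝ} (hN : (1 / 2 : ℝ) ^ N ≤ u) (hu : u ≤ 1) :
    ∃ k : ℕ, k ≤ N ∧ u ≤ (1 / 2 : ℝ) ^ k ∧ (1 / 2 : ℝ) ^ k < 2 * u := by
  have h0 : 0 < u := lt_of_lt_of_le (by positivity) hN
  obtain ⟨k, hk1, hk2⟩ := exists_nat_pow_near_of_lt_one h0 hu (by norm_num : (0 : ℝ) < 1 / 2) (by norm_num)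
  refine ⟨k, ?_, hk2, ?_⟩
  · by_contra hcon
    push Not at hcon
    have h1 : (1 / 2 : ℝ) ^ k < (1 / 2 : ℝ) ^ N := pow_lt_pow_right_of_lt_one₀ (by norm_num) (by norm_num) hcon
    linarith
  · have : (1 / 2 : ℝ) ^ (k + 1) = (1 / 2 : ℝ) ^ k / 2 := by rw [pow_succ]; ring
    linarith

/-- reduction of the angle -/
theorem exists_ang (θ : ℝ) : ∃ θ' : ℝ, |θ'| ≤ 4 ∧ ∀ u : Fin 2 → ℝ, co θ' u = co θ u := by
  refine ⟨toIocMod Real.two_pi_pos (-Real.pi) θ, ?_, ?_⟩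
  · have h := toIocMod_mem_Ioc Real.two_pi_pos (-Real.pi) θ
    have hpi := Real.pi_lt_d2
    rw [abs_le]
    constructor <;> linarith [h.1, h.2]
  · intro u
    have h : θ = toIocMod Real.two_pi_pos (-Real.pi) θ + toIocDiv Real.two_pi_pos (-Real.pi) θ * (2 * Real.pi) := by
      have := toIocMod_add_toIocDiv_zsmul Real.two_pi_pos (-Real.pi) θ
      rw [zsmul_eq_mul] at this
      exact this.symm
    have hc : Real.cos θ = Real.cos (toIocMod Real.two_pi_pos (-Real.pi) θ) := by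
      conv_lhs => rw [h]
      exact Real.cos_add_int_mul_two_pi _ _
    have hs : Real.sin θ = Real.sin (toIocMod Real.two_pi_pos (-Real.pi) θ) := by
      conv_lhs => rw [h]
      exact Real.sin_add_int_mul_two_pi _ _
    unfold co
    rw [hc, hs]

/-- **planks with real widths** -/
theorem card_plank_le (D : Finset T) {θ u1 u2 : ℝ} {p v : Fin 2 → ℝ} {t : ℤ} (hN : (1 / 2 : ℝ) ^ N ≤ u1) (h12 : u1 ≤ u2)
    (hu : u2 ≤ 1) {U : Finset T} (hU : U ⊆ D)
    (h : ∀ S ∈ U, tm S = t ∧ |co θ (fun i => pos S i - p i) 0| ≤ u2 ∧ |co θ (fun i => pos S i - p i) 1| ≤ u1 ∧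
      |co θ (fun i => slp S i - v i) 0| ≤ u2 ∧ |co θ (fun i => slp S i - v i) 1| ≤ u1) :
    (U.card : ℝ) ≤ (pkF pos slp tm N).mx D * (4 * (u1 * u2 * 2 ^ (2 * N))) := by
  obtain ⟨j, hj, hj1, hj2⟩ := exists_dy hN (h12.trans hu)
  obtain ⟨k, _, hk1, hk2⟩ := exists_dy (hN.trans h12) hu
  obtain ⟨θ', hθ, hθ'⟩ := exists_ang θ
  have hu1 : 0 < u1 := lt_of_lt_of_le (by positivity) hN
  have hu2 : 0 < u2 := lt_of_lt_of_le hu1 h12
  have hm := (pkF pos slp tm N).mx_nonneg D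
  set k' := min k j with hk'
  have hkj : k' ≤ j := min_le_right _ _
  have hk1' : u2 ≤ (1 / 2 : ℝ) ^ k' := hk1.trans (pow_le_pow_of_le_one (by norm_num) (by norm_num) (min_le_left _ _))
  have hk2' : (1 / 2 : ℝ) ^ k' < 2 * u2 := by
    rcases le_total k j with h' | h'
    · rw [hk', min_eq_left h']; exact hk2
    · rw [hk', min_eq_right h']; linarith
  let w : Pk := ⟨t, θ', k', j, p, v⟩
  have hF : (pkF pos slp tm N).F w := ⟨hkj, hj, hθ⟩
  have h1 : (U.card : ℝ) ≤ ((pkF pos slp tm N).ins D w).card := by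
    refine Nat.cast_le.2 (Finset.card_le_card fun S hS => (BF.mem_ins _).2 ⟨hU hS, ?_⟩)
    obtain ⟨a0, a1, a2, a3, a4⟩ := h S hS
    refine ⟨a0, ?_, ?_, ?_, ?_⟩
    · show |co θ' _ 0| ≤ (1 / 2 : ℝ) ^ k'
      rw [hθ']; exact a1.trans hk1'
    · show |co θ' _ 1| ≤ (1 / 2 : ℝ) ^ j
      rw [hθ']; exact a2.trans hj1
    · show |co θ' _ 0| ≤ (1 / 2 : ℝ) ^ k'
      rw [hθ']; exact a3.trans hk1'
    · show |co θ' _ 1| ≤ (1 / 2 : ℝ) ^ j
      rw [hθ']; exact a4.trans hj1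
  refine h1.trans (((pkF pos slp tm N).card_le D hF).trans (mul_le_mul_of_nonneg_left ?_ hm))
  show (2 : ℝ) ^ (2 * N - (k' + j)) ≤ 4 * (u1 * u2 * 2 ^ (2 * N))
  have h2 : (2 : ℝ) ^ (2 * N - (k' + j)) = 2 ^ (2 * N) * ((1 / 2 : ℝ) ^ k' * (1 / 2 : ℝ) ^ j) := by
    have h3 : k' + j ≤ 2 * N := by
      have : k' ≤ k := min_le_left _ _
      omega
    rw [← pow_add, one_div, inv_pow, ← div_eq_mul_inv, eq_div_iff (by positivity), ← pow_add]
    congr 1
    omega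
  rw [h2]
  have h4 : (1 / 2 : ℝ) ^ k' * (1 / 2 : ℝ) ^ j ≤ 2 * u2 * (2 * u1) :=
    mul_le_mul hk2'.le hj2.le (by positivity) (by positivity)
  have h5 : (0 : ℝ) < 2 ^ (2 * N) := by positivity
  nlinarith

end

end Vale.Agent.P122.H286
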