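import Vale.Agent.P122.H286.SysW
import Vale.Agent.P122.C.Val

/-!
# P122 / H286 : the greedy refinement of a valid structure

`greedy_val` : `V` valid, thresholds `κ c > 0`.  There are greedy partitions of all `V.D c`, `c ≤ K`, and a refinement
`V'` (loss polynomial in `n`) such that at every level `c ≤ K` either `V'.D c` is inside the low part (so `mx ≤ κ c`),
or `V'.D c` is inside the high part and all planks `f c S`, `S ∈ V'.D c`, have the same shape.
-/

set_option autoImplicit false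

namespace Vale.Agent.P122.H286

open Finset Vale.Agent.P122.C2

/-- labels: low or the shape of the plank -/
abbrev ShL (N : ℕ) := Option (Fin (N + 1) × Fin (N + 1))

/-- number of labels -/
def nlab (N : ℕ) : ℕ := (N + 1) ^ 2 + 1

theorem card_ShL (N : ℕ) : Fintype.card (ShL N) = nlab N := by
  unfold nlab ShL
  simp [sq]

theorem nlab_pos (N : ℕ) : 0 < nlab N := by unfold nlab; positivity

open Classical in
/-- the label of a tube -/
noncomputable def shl (N : ℕ) (Lo : Finset Nd) (f : Nd → Pk) (S : Nd) : ShL N :=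
  if S ∈ Lo then none else some (⟨min (f S).k N, by omega⟩, ⟨min (f S).j N, by omega⟩)

theorem greedy_val {C : ℝ} {n K : ℕ} {F : Amp C n K} (V : Val) (ρ : ℝ) (a : ℕ → ℝ) (J : ℕ → ℕ) (h : V.Ok F ρ a J)
    (hρ : 0 < ρ) (w : Nd → ℝ) (hw : ∀ x ∈ V.X, 0 ≤ w x) (κ : ℕ → ℝ) (hκ : ∀ c, 0 < κ c) :
    ∃ (V' : Val) (J' : ℕ → ℕ) (Lo : ℕ → Finset Nd) (f : ℕ → Nd → Pk), V'.Le V ∧
      V'.Ok F (ρ / (los (nlab (K * n)) n K : ℕ) ^ (K + 1)) a J' ∧
      (∀ c, GP (nbf F.s n c).inc (nbf F.s n c).F (fun w => κ c * (nbf F.s n c).v w) (V.D F.s n c) (Lo c) (f c)) ∧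
      (∀ c, (nbf F.s n c).mx (Lo c) ≤ κ c) ∧
      (∀ c, c ≤ K → (V'.D F.s n c ⊆ Lo c ∧ (nbf F.s n c).mx (V'.D F.s n c) ≤ κ c) ∨
        ∃ k j : ℕ, ∀ S ∈ V'.D F.s n c, S ∉ Lo c ∧ (f c S).k = k ∧ (f c S).j = j) ∧
      ∑ x ∈ V.X, w x ≤ (los (nlab (K * n)) n K : ℕ) ^ (K + 1) * ∑ x ∈ V'.X, w x := by
  classical
  choose Lo f hg hmx using fun c => (nbf F.s n c).part (hκ c) (V.D F.s n c)
  let e : ShL (K * n) ≃ Fin (nlab (K * n)) := (Fintype.equivFin _).trans (finCongr (card_ShL _))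
  obtain ⟨V', J', u, h1, h2, h3, h4⟩ := tnref V ρ a J h hρ w hw (nlab (K * n)) (nlab_pos _)
    (fun c S => e (shl (K * n) (Lo c) (f c) S)) (K + 1) le_rfl
  refine ⟨V', J', Lo, f, h1, h2, hg, hmx, ?_, h4⟩
  intro c hc
  have h5 : ∀ S ∈ V'.D F.s n c, shl (K * n) (Lo c) (f c) S = e.symm (u c) := by
    intro S hS
    have := h3 c (by omega) S hS
    rw [← this, Equiv.symm_apply_apply]
  rcases hu : e.symm (u c) with _ | ⟨k, j⟩
  · left
    have h6 : V'.D F.s n c ⊆ Lo c := by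
      intro S hS
      have h7 := h5 S hS
      rw [hu] at h7
      by_contra hcon
      unfold shl at h7
      rw [if_neg hcon] at h7
      exact absurd h7 (by simp)
    exact ⟨h6, ((nbf F.s n c).mx_mono h6).trans (hmx c)⟩
  · right
    refine ⟨k, j, fun S hS => ?_⟩
    have h7 := h5 S hS
    rw [hu] at h7
    unfold shl at h7
    by_cases hL : S ∈ Lo c
    · rw [if_pos hL] at h7
      exact absurd h7 (by simp)
    · rw [if_neg hL] at h7
      have h8 := Option.some.inj h7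
      have h9 : min (f c S).k (K * n) = k := congrArg (fun p : Fin (K * n + 1) × Fin (K * n + 1) => (p.1 : ℕ)) h8
      have h10 : min (f c S).j (K * n) = j := congrArg (fun p : Fin (K * n + 1) × Fin (K * n + 1) => (p.2 : ℕ)) h8
      obtain ⟨⟨b1, b2, -⟩, -⟩ := (hg c).adm S (h1.D c hS) hL
      have b3 : c * n ≤ K * n := Nat.mul_le_mul_right _ hc
      refine ⟨hL, ?_, ?_⟩
      · rw [← h9]; omega
      · rw [← h10]; omega

/-- the tubes themselves are planks: the maximal density is at least one -/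
theorem one_le_mx_nbf (s : ℕ → Z2 → Fin 2 → ℝ) (n c : ℕ) {D : Finset Nd} (h : D.Nonempty) :
    1 ≤ (nbf s n c).mx D := by
  obtain ⟨S, hS⟩ := h
  refine (nbf s n c).one_le_mx hS (w := ⟨S.T, 0, c * n, c * n, fun k => (S.o k : ℝ) / 2 ^ (c * n), s c S.τ⟩)
    ⟨le_rfl, le_rfl, by simp⟩ ?_ ?_
  · refine ⟨rfl, ?_, ?_, ?_, ?_⟩ <;>
    · simp only [sub_self]
      unfold Vale.Agent.P127.U.co
      simp
  · show (2 : ℝ) ^ (2 * (c * n) - (c * n + c * n)) = 1
    rw [two_mul, Nat.sub_self, pow_zero]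

end Vale.Agent.P122.H286
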